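import Vale.Agent.P073.Rho

/-!
# Mollifications with small variable radius converge in `Lᵖ`
-/

namespace Vale.Agent.P073

open MeasureTheory Metric Set Function Filter
open scoped ContDiff Topology ENNReal

set_option linter.unusedSectionVars false

variable {E : Type*} [NormedAddCommGroup E] [InnerProductSpace ℝ E] [FiniteDimensional ℝ E]
  [MeasureSpace E] [BorelSpace E] [(volume : Measure E).IsAddHaarMeasure]
  {F : Type*} [NormedAddCommGroup F] [NormedSpace ℝ F]

theorem det_id_add_smulRight (φ : E →L[ℝ] ℝ) (e : E) :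
    (ContinuousLinearMap.id ℝ E + φ.smulRight e).det = 1 + φ e := by
  have h : (ContinuousLinearMap.id ℝ E + φ.smulRight e).toLinearMap
      = LinearMap.transvection φ.toLinearMap e := by
    ext x
    simp [LinearMap.transvection]
  rw [ContinuousLinearMap.det, h]
  exact LinearMap.transvection.det _ _

/-- The probability measure with density the mollifier. -/
noncomputable def mollMeasure : Measure E := volume.withDensity fun y => ENNReal.ofReal (moll E y)

theorem isProbability_mollMeasure : IsProbabilityMeasure (mollMeasure (E := E)) := by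
  constructor
  rw [mollMeasure, withDensity_apply _ MeasurableSet.univ, Measure.restrict_univ,
    ← ofReal_integral_eq_lintegral_ofReal integrable_moll
      (Eventually.of_forall moll_nonneg), integral_moll, ENNReal.ofReal_one]

/-- The mean of `‖w‖` over the ball of radius `ρ x` about `x`. -/
noncomputable def ballMean (ρ : E → ℝ) (w : E → F) (x : E) : ℝ :=
  ∫ y, moll E y * ‖w (x + ρ x • y)‖

theorem integrable_moll_mul_comp {w : E → F} (hw : Integrable w) (x : E) {t : ℝ} (ht : t ≠ 0) :
    Integrable fun y => moll E y * ‖w (x + t • y)‖ := by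
  obtain ⟨C, hC⟩ := (moll_contDiff (E := E)).continuous.bounded_above_of_compact_support
    ((bump E).hasCompactSupport_normed)
  exact ((hw.norm.comp_add_left x).comp_smul ht).bdd_mul
    (moll_contDiff (E := E)).continuous.aestronglyMeasurable (Eventually.of_forall hC)

theorem enorm_ballMean_rpow_le {ρ : E → ℝ} {w : E → F} (hw : StronglyMeasurable w) {p : ℝ}
    (hp : 1 ≤ p) (x : E) :
    ‖ballMean ρ w x‖ₑ ^ p ≤ ∫⁻ y, ENNReal.ofReal (moll E y) * ‖w (x + ρ x • y)‖ₑ ^ p := by
  have := isProbability_mollMeasure (E := E)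
  have hp0 : 0 < p := by linarith
  have hm : Measurable fun y : E => ENNReal.ofReal (moll E y) :=
    ENNReal.measurable_ofReal.comp (moll_contDiff (E := E)).continuous.measurable
  have hwm : StronglyMeasurable fun y : E => w (x + ρ x • y) :=
    hw.comp_measurable (by fun_prop)
  have h1 : ‖ballMean ρ w x‖ₑ ≤ ∫⁻ y, ‖w (x + ρ x • y)‖ₑ ∂mollMeasure := by
    refine (enorm_integral_le_lintegral_enorm _).trans (le_of_eq ?_)
    rw [mollMeasure, lintegral_withDensity_eq_lintegral_mul _ hm hwm.enorm]
    refine lintegral_congr fun y => ?_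
    rw [Pi.mul_apply, enorm_mul, enorm_norm, Real.enorm_eq_ofReal (moll_nonneg y)]
  have h2 := eLpNorm_le_eLpNorm_of_exponent_le (μ := (mollMeasure : Measure E))
    (show (1 : ℝ≥0∞) ≤ ENNReal.ofReal p by simpa using hp) hwm.aestronglyMeasurable
  rw [eLpNorm_one_eq_lintegral_enorm, eLpNorm_eq_lintegral_rpow_enorm_toReal (by simpa using hp0)
    ENNReal.ofReal_ne_top, ENNReal.toReal_ofReal hp0.le] at h2
  refine (ENNReal.rpow_le_rpow (h1.trans h2) hp0.le).trans (le_of_eq ?_)
  rw [← ENNReal.rpow_mul, one_div_mul_cancel hp0.ne', ENNReal.rpow_one, mollMeasure,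
    lintegral_withDensity_eq_lintegral_mul _ hm (hwm.enorm.pow_const p)]
  rfl

/-- Averaging over balls of variable radius is bounded in `Lᵖ`. -/
theorem eLpNorm_ballMean_le {Ω : Set E} (hΩ : MeasurableSet Ω) {ρ : E → ℝ}
    (hρ : ContDiff ℝ ∞ ρ) (hgrad : ∀ y, ‖fderiv ℝ ρ y‖ ≤ 1 / 4) {w : E → F}
    (hw : StronglyMeasurable w) {p : ℝ≥0∞} (hp : 1 ≤ p) (hp' : p ≠ ⊤) :
    eLpNorm (ballMean ρ w) p (volume.restrict Ω) ≤ 2 * eLpNorm w p volume := by
  have hp0 : p ≠ 0 := (zero_lt_one.trans_le hp).ne'
  have hr : 1 ≤ p.toReal := by simpa using ENNReal.toReal_mono hp' hp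
  have hr0 : 0 < p.toReal := by linarith
  rw [eLpNorm_eq_lintegral_rpow_enorm_toReal hp0 hp', eLpNorm_eq_lintegral_rpow_enorm_toReal hp0 hp']
  have hshift : ∀ y : E, ‖y‖ ≤ 1 →
      ∫⁻ x in Ω, ‖w (x + ρ x • y)‖ₑ ^ p.toReal ≤ 2 * ∫⁻ x, ‖w x‖ₑ ^ p.toReal := by
    intro y hy
    set T : E → E := fun x => x + ρ x • y
    have hT : ∀ x, HasFDerivAt T (ContinuousLinearMap.id ℝ E + (fderiv ℝ ρ x).smulRight y) x :=
      fun x => (hasFDerivAt_id x).add (((hρ.differentiable (by simp)) x).hasFDerivAt.smul_const y)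
    have hTi : InjOn T Ω := by
      intro a _ b _ hab
      have h1 := convex_univ.norm_image_sub_le_of_norm_fderiv_le
        (fun w _ => (hρ.differentiable (by simp)) w) (fun w _ => hgrad w)
        (mem_univ b) (mem_univ a)
      have h2 : a - b = (ρ b - ρ a) • y := by
        have : a + ρ a • y = b + ρ b • y := hab
        rw [sub_smul, sub_eq_sub_iff_add_eq_add, this]
        abel
      have h3 : ‖a - b‖ ≤ ‖ρ a - ρ b‖ * 1 := by
        rw [h2, norm_smul, norm_sub_rev]
        exact mul_le_mul_of_nonneg_left hy (norm_nonneg _)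
      exact sub_eq_zero.1 (norm_eq_zero.1 (by linarith [norm_nonneg (a - b)]))
    have h := lintegral_image_eq_lintegral_abs_det_fderiv_mul (volume : Measure E) hΩ
      (fun x _ => (hT x).hasFDerivWithinAt) hTi (fun x => ‖w x‖ₑ ^ p.toReal)
    have h2 : ∫⁻ x in Ω, ‖w (T x)‖ₑ ^ p.toReal ≤
        ∫⁻ x in Ω, 2 * (ENNReal.ofReal |(ContinuousLinearMap.id ℝ E +
          (fderiv ℝ ρ x).smulRight y).det| * ‖w (T x)‖ₑ ^ p.toReal) := by
      refine lintegral_mono fun x => ?_
      rw [det_id_add_smulRight, ← mul_assoc]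
      refine le_mul_of_one_le_left zero_le ?_
      have h4 : |fderiv ℝ ρ x y| ≤ 1 / 4 := by
        rw [← Real.norm_eq_abs]
        exact ((fderiv ℝ ρ x).le_opNorm y).trans
          ((mul_le_mul (hgrad x) hy (norm_nonneg _) (by norm_num)).trans (by norm_num))
      rw [← ENNReal.ofReal_ofNat, ← ENNReal.ofReal_mul zero_le_two, ENNReal.one_le_ofReal]
      have := le_abs_self (1 + fderiv ℝ ρ x y)
      linarith [(abs_le.1 h4).1]
    rw [lintegral_const_mul' _ _ (by norm_num), ← h] at h2
    exact h2.trans (by gcongr; exact Measure.restrict_le_self)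
  have hmeas : Measurable fun q : E × E =>
      ENNReal.ofReal (moll E q.2) * ‖w (q.1 + ρ q.1 • q.2)‖ₑ ^ p.toReal := by
    refine Measurable.mul (ENNReal.measurable_ofReal.comp
      ((moll_contDiff (E := E)).continuous.measurable.comp measurable_snd)) ?_
    exact (hw.comp_measurable (measurable_fst.add
      ((hρ.continuous.measurable.comp measurable_fst).smul measurable_snd))).enorm.pow_const _
  have key : ∫⁻ x in Ω, ‖ballMean ρ w x‖ₑ ^ p.toReal ≤ 2 * ∫⁻ x, ‖w x‖ₑ ^ p.toReal := by
    refine (lintegral_mono fun x => enorm_ballMean_rpow_le hw hr x).trans ?_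
    rw [lintegral_lintegral_swap hmeas.aemeasurable]
    refine (lintegral_mono fun y => (lintegral_const_mul' _ _ ENNReal.ofReal_ne_top).le).trans ?_
    refine (lintegral_mono (g := fun y => ENNReal.ofReal (moll E y) *
      (2 * ∫⁻ x, ‖w x‖ₑ ^ p.toReal)) fun y => ?_).trans ?_
    · rcases lt_or_ge 1 ‖y‖ with hy | hy
      · simp [moll_eq_zero hy]
      · exact mul_le_mul_of_nonneg_left (hshift y hy) zero_le
    · rw [lintegral_mul_const _ (show Measurable fun y => ENNReal.ofReal (moll E y) from
        ENNReal.measurable_ofReal.comp (moll_contDiff (E := E)).continuous.measurable),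
        ← ofReal_integral_eq_lintegral_ofReal integrable_moll (Eventually.of_forall moll_nonneg),
        integral_moll, ENNReal.ofReal_one, one_mul]
  refine (ENNReal.rpow_le_rpow key (by positivity)).trans ?_
  rw [ENNReal.mul_rpow_of_nonneg _ _ (by positivity)]
  refine mul_le_mul_of_nonneg_right ?_ zero_le
  calc (2 : ℝ≥0∞) ^ (1 / p.toReal) ≤ 2 ^ (1 : ℝ) :=
        ENNReal.rpow_le_rpow_of_exponent_le (by norm_num) (by rw [div_le_one hr0]; exact hr)
    _ = 2 := ENNReal.rpow_one _

/-- The mean oscillation of `v` over the balls of radius `ρ`. -/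
noncomputable def oscMean (ρ : E → ℝ) (v : E → F) (x : E) : ℝ :=
  ∫ y, moll E y * ‖v (x + ρ x • y) - v x‖

theorem oscMean_nonneg (ρ : E → ℝ) (v : E → F) (x : E) : 0 ≤ oscMean ρ v x :=
  integral_nonneg fun y => mul_nonneg (moll_nonneg y) (norm_nonneg _)

theorem integrable_osc {v : E → F} (hv : Integrable v) (x : E) {t : ℝ} (ht : t ≠ 0) :
    Integrable fun y => moll E y * ‖v (x + t • y) - v x‖ := by
  obtain ⟨C, hC⟩ := (moll_contDiff (E := E)).continuous.bounded_above_of_compact_support
    ((bump E).hasCompactSupport_normed)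
  refine ((integrable_moll_mul_comp hv x ht).add ((integrable_moll (E := E)).mul_const ‖v x‖)).mono'
    ((moll_contDiff (E := E)).continuous.aestronglyMeasurable.mul
      (((hv.comp_add_left x).comp_smul ht).1.sub aestronglyMeasurable_const).norm)
    (Eventually.of_forall fun y => ?_)
  simp only [Pi.add_apply, norm_mul, Real.norm_of_nonneg (moll_nonneg y), norm_norm]
  rw [← mul_add]
  exact mul_le_mul_of_nonneg_left (norm_sub_le _ _) (moll_nonneg y)

theorem stronglyMeasurable_oscMean {ρ : E → ℝ} (hρ : Continuous ρ) {v : E → F}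
    (hv : StronglyMeasurable v) : StronglyMeasurable (oscMean ρ v) := by
  have hT : StronglyMeasurable fun q : E × E => v (q.1 + ρ q.1 • q.2) :=
    hv.comp_measurable (measurable_fst.add
      ((hρ.measurable.comp measurable_fst).smul measurable_snd))
  exact (((moll_contDiff (E := E)).continuous.comp continuous_snd).stronglyMeasurable.mul
    (hT.sub (hv.comp_measurable measurable_fst)).norm).integral_prod_right

theorem stronglyMeasurable_ballMean {ρ : E → ℝ} (hρ : Continuous ρ) {v : E → F}
    (hv : StronglyMeasurable v) : StronglyMeasurable (ballMean ρ v) := by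
  have hT : StronglyMeasurable fun q : E × E => v (q.1 + ρ q.1 • q.2) :=
    hv.comp_measurable (measurable_fst.add
      ((hρ.measurable.comp measurable_fst).smul measurable_snd))
  exact (((moll_contDiff (E := E)).continuous.comp continuous_snd).stronglyMeasurable.mul
    hT.norm).integral_prod_right

/-- The mean oscillation over shrinking balls tends to zero in `Lᵖ`. -/
theorem tendsto_oscMean {Ω : Set E} (hΩ : MeasurableSet Ω) (hΩb : Bornology.IsBounded Ω)
    {ρ : E → ℝ} (hρ : ContDiff ℝ ∞ ρ) (hgrad : ∀ y, ‖fderiv ℝ ρ y‖ ≤ 1 / 4)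
    (hpos : ∀ x ∈ Ω, 0 < ρ x) (hle : ∀ y, ρ y ≤ 1) {v : E → F} (hv : StronglyMeasurable v)
    (hvi : Integrable v) {p : ℝ≥0∞} (hp : 1 ≤ p) (hp' : p ≠ ⊤) (hvp : MemLp v p) :
    Tendsto (fun ε : ℝ => eLpNorm (oscMean (fun y => ε * ρ y) v) p (volume.restrict Ω))
      (𝓝[>] 0) (𝓝 0) := by
  rw [ENNReal.tendsto_nhds_zero]
  intro δ hδ
  rcases eq_or_ne δ ⊤ with rfl | hδt
  · exact Eventually.of_forall fun _ => le_top
  obtain ⟨u, hus, huv, huc, hup⟩ := hvp.exists_hasCompactSupport_eLpNorm_sub_le hp'
    (show δ / 8 ≠ 0 by simp [hδ.ne'])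
  set c : ℝ≥0∞ := (volume.restrict Ω) univ ^ p.toReal⁻¹ with hcdef
  have hct : c ≠ ⊤ := by
    refine ENNReal.rpow_ne_top_of_nonneg (by positivity) ?_
    rw [Measure.restrict_apply_univ]
    exact hΩb.measure_lt_top.ne
  obtain ⟨d, hd, hdc⟩ : ∃ d : ℝ, 0 < d ∧ c * ENNReal.ofReal d ≤ δ / 2 := by
    have hδ2 : δ / 2 ≠ ⊤ := ENNReal.div_ne_top hδt (by norm_num)
    have hδ20 : 0 < (δ / 2).toReal := ENNReal.toReal_pos (by simp [hδ.ne']) hδ2
    refine ⟨(δ / 2).toReal / (c.toReal + 1), div_pos hδ20 (by positivity), ?_⟩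
    calc c * ENNReal.ofReal ((δ / 2).toReal / (c.toReal + 1))
        = ENNReal.ofReal (c.toReal * ((δ / 2).toReal / (c.toReal + 1))) := by
          rw [ENNReal.ofReal_mul ENNReal.toReal_nonneg, ENNReal.ofReal_toReal hct]
      _ ≤ ENNReal.ofReal (δ / 2).toReal := by
          refine ENNReal.ofReal_le_ofReal ?_
          rw [← mul_div_assoc, div_le_iff₀ (by positivity)]
          nlinarith [ENNReal.toReal_nonneg (a := c)]
      _ = δ / 2 := ENNReal.ofReal_toReal hδ2
  obtain ⟨θ, hθ, hu⟩ := Metric.uniformContinuous_iff.1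
    (huc.uniformContinuous_of_tendsto_cocompact hus.is_zero_at_infty) d hd
  have hui : Integrable u := huc.integrable_of_hasCompactSupport hus
  filter_upwards [Ioo_mem_nhdsGT (lt_min one_pos hθ)] with ε hε
  obtain ⟨hε0, hε1⟩ := hε
  rw [lt_min_iff] at hε1
  set σ := fun y => ε * ρ y
  have hσ : ContDiff ℝ ∞ σ := contDiff_const.mul hρ
  have hσg : ∀ y, ‖fderiv ℝ σ y‖ ≤ 1 / 4 := fun y => by
    rw [fderiv_const_mul ((hρ.differentiable (by simp)) y), norm_smul, Real.norm_of_nonneg hε0.le]
    nlinarith [hgrad y, norm_nonneg (fderiv ℝ ρ y), hε1.1]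
  set w := v - u with hw
  have hwm : StronglyMeasurable w := hv.sub huc.stronglyMeasurable
  have hwi : Integrable w := hvi.sub hui
  have hb : ∀ x ∈ Ω, ‖oscMean σ v x‖ ≤ ‖d + (ballMean σ w x + ‖w x‖)‖ := by
    intro x hx
    have hσx : σ x ≠ 0 := (mul_pos hε0 (hpos x hx)).ne'
    have hbm : 0 ≤ ballMean σ w x :=
      integral_nonneg fun y => mul_nonneg (moll_nonneg y) (norm_nonneg _)
    rw [Real.norm_of_nonneg (oscMean_nonneg _ _ _), Real.norm_of_nonneg (by positivity)]
    refine (integral_mono (integrable_osc hvi x hσx)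
      (((integrable_moll (E := E)).mul_const d).add ((integrable_moll_mul_comp hwi x hσx).add
        ((integrable_moll (E := E)).mul_const ‖w x‖))) fun y => ?_).trans (le_of_eq ?_)
    · simp only [Pi.add_apply]
      rcases lt_or_ge 1 ‖y‖ with hy | hy
      · simp [moll_eq_zero hy]
      rw [← mul_add, ← mul_add]
      refine mul_le_mul_of_nonneg_left ?_ (moll_nonneg y)
      have h1 : dist (u (x + σ x • y)) (u x) < d := by
        refine hu ?_
        rw [dist_eq_norm, add_sub_cancel_left, norm_smul,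
          Real.norm_of_nonneg (mul_pos hε0 (hpos x hx)).le]
        exact (mul_le_of_le_one_right (mul_pos hε0 (hpos x hx)).le hy).trans_lt
          ((mul_le_of_le_one_right hε0.le (hle x)).trans_lt hε1.2)
      rw [show v (x + σ x • y) - v x =
        (u (x + σ x • y) - u x) + (w (x + σ x • y) - w x) by simp [hw]; abel]
      refine (norm_add_le _ _).trans (add_le_add ?_ (norm_sub_le _ _))
      rw [← dist_eq_norm]
      exact h1.le
    · rw [integral_add' ((integrable_moll (E := E)).mul_const d)
        ((integrable_moll_mul_comp hwi x hσx).add ((integrable_moll (E := E)).mul_const ‖w x‖)),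
        integral_add' (integrable_moll_mul_comp hwi x hσx)
          ((integrable_moll (E := E)).mul_const ‖w x‖),
        integral_mul_const, integral_mul_const, integral_moll, one_mul, one_mul, ballMean]
  refine (eLpNorm_mono_ae (ae_restrict_of_forall_mem hΩ hb)).trans ?_
  refine (eLpNorm_add_le aestronglyMeasurable_const ?_ hp).trans ?_
  · exact ((stronglyMeasurable_ballMean hσ.continuous hwm).add hwm.norm).aestronglyMeasurable
  refine (add_le_add ?_ ((eLpNorm_add_le
    (stronglyMeasurable_ballMean hσ.continuous hwm).aestronglyMeasurable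
    hwm.norm.aestronglyMeasurable hp).trans (add_le_add
      ((eLpNorm_ballMean_le hΩ hσ hσg hwm hp hp').trans (mul_le_mul_of_nonneg_left huv zero_le)) ?_))).trans
    (b := δ / 2 + (2 * (δ / 8) + δ / 8)) ?_
  · rcases eq_or_ne (volume.restrict Ω) 0 with h0 | h0
    · simp [h0]
    rw [eLpNorm_const _ (zero_lt_one.trans_le hp).ne' h0, Real.enorm_eq_ofReal hd.le, mul_comm,
      one_div]
    exact hdc
  · rw [eLpNorm_norm]
    exact (eLpNorm_mono_measure _ Measure.restrict_le_self).trans huv
  · calc δ / 2 + (2 * (δ / 8) + δ / 8) ≤ δ / 2 + (2 * (δ / 8) + 2 * (δ / 8)) := by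
          gcongr; exact le_mul_of_one_le_left zero_le (by norm_num)
      _ = δ / 2 + δ / 2 := by
          rw [← two_mul, ← mul_assoc]
          congr 1
          rw [ENNReal.div_eq_inv_mul, ENNReal.div_eq_inv_mul, ← mul_assoc]
          congr 1
          rw [show (8 : ℝ≥0∞) = 4 * 2 by norm_num, ENNReal.mul_inv (by norm_num) (by norm_num),
            show (2 : ℝ≥0∞) * 2 = 4 by norm_num, ← mul_assoc,
            ENNReal.mul_inv_cancel (by norm_num) (by norm_num), one_mul]
      _ = δ := ENNReal.add_halves δ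

end Vale.Agent.P073
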