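import Mathlib

/-!
# Sobolev homeomorphisms which are almost affine on small balls: definitions
-/

namespace Vale.Agent.P073

open MeasureTheory Metric Set
open scoped ContDiff ENNReal

variable {E : Type*} [NormedAddCommGroup E] [NormedSpace ℝ E] [MeasureSpace E]

/-- `f` lies in `W^{1,p}(Ω; E)` with weak derivative `G`: both are `p`-integrable on `Ω` and
integration by parts holds against smooth functions with compact support in `Ω`. -/
def HasSobolevDeriv (Ω : Set E) (p : ℝ≥0∞) (f : E → E) (G : E → E →L[ℝ] E) : Prop :=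
  MemLp f p (volume.restrict Ω) ∧ MemLp G p (volume.restrict Ω) ∧
    ∀ ψ : E → ℝ, ContDiff ℝ ∞ ψ → HasCompactSupport ψ → tsupport ψ ⊆ Ω → ∀ h : E,
      ∫ x in Ω, fderiv ℝ ψ x h • f x = -∫ x in Ω, ψ x • G x h

/-- `g` is a diffeomorphism of `Ω` onto `Λ`: a smooth bijection with smooth inverse. -/
def IsDiffeo (Ω Λ : Set E) (g : E → E) : Prop :=
  BijOn g Ω Λ ∧ ContDiffOn ℝ ∞ g Ω ∧
    ∃ g' : E → E, InvOn g' g Ω Λ ∧ ContDiffOn ℝ ∞ g' Λ

/-- There are diffeomorphisms of `Ω` onto `Λ` arbitrarily close to `f` in `W^{1,p}`. -/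
def IsDiffeoApproximable (Ω Λ : Set E) (p : ℝ≥0∞) (f : E → E) (G : E → E →L[ℝ] E) : Prop :=
  ∀ ε : ℝ≥0∞, 0 < ε → ∃ g : E → E, IsDiffeo Ω Λ g ∧
    eLpNorm (fun x => g x - f x) p (volume.restrict Ω) +
      eLpNorm (fun x => fderiv ℝ g x - G x) p (volume.restrict Ω) < ε

/-- Every point `a` of `Ω` has a scale `R` such that on each ball of centre within `R` of `a` and
radius at most `R` the map `f` is within `η` times the radius times the least stretch `1 / ‖L⁻¹‖`
of an affine bijection `y ↦ b + L (y - x)`. -/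
def IsAlmostAffine (η : ℝ) (Ω : Set E) (f : E → E) : Prop :=
  ∀ a ∈ Ω, ∃ R > 0, closedBall a (2 * R) ⊆ Ω ∧ ∀ x ∈ closedBall a R, ∀ r ∈ Ioc 0 R,
    ∃ (L : E ≃L[ℝ] E) (b : E), ∀ y ∈ closedBall x r,
      ‖f y - (b + L (y - x))‖ * ‖(L.symm : E →L[ℝ] E)‖ ≤ η * r

end Vale.Agent.P073
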