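import Vale.Agent.P073.Defs

/-!
# Mollification with a variable radius
-/

namespace Vale.Agent.P073

set_option linter.unusedSectionVars false

open MeasureTheory Metric Set Function Filter
open scoped ContDiff Topology RealInnerProductSpace

variable (E : Type*) [NormedAddCommGroup E] [InnerProductSpace ℝ E] [FiniteDimensional ℝ E]
  [MeasureSpace E] [BorelSpace E] [(volume : Measure E).IsAddHaarMeasure]

/-- The fixed bump. -/
noncomputable def bump : ContDiffBump (0 : E) := ⟨1 / 2, 1, by norm_num, by norm_num⟩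

/-- The fixed mollifier, of integral one and supported in the unit ball. -/
noncomputable def moll : E → ℝ := (bump E).normed volume

/-- The constant in the bound for the derivative of a mollification. -/
noncomputable def mollConst : ℝ := Module.finrank ℝ E + 2 * ∫ y : E, ‖fderiv ℝ (moll E) y‖

variable {E}

theorem moll_nonneg (y : E) : 0 ≤ moll E y := (bump E).nonneg_normed y

theorem moll_contDiff : ContDiff ℝ ∞ (moll E) := (bump E).contDiff_normed

theorem moll_eq_zero {y : E} (hy : 1 < ‖y‖) : moll E y = 0 :=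
  image_eq_zero_of_notMem_tsupport fun h => by
    rw [moll, (bump E).tsupport_normed_eq] at h
    simp [bump] at h
    linarith

theorem fderiv_moll_eq_zero {y : E} (hy : 1 < ‖y‖) : fderiv ℝ (moll E) y = 0 :=
  image_eq_zero_of_notMem_tsupport fun h => by
    have h1 := tsupport_fderiv_subset ℝ (f := moll E) h
    rw [moll, (bump E).tsupport_normed_eq] at h1
    simp [bump] at h1
    linarith

theorem integral_moll : ∫ y : E, moll E y = 1 := (bump E).integral_normed

theorem integrable_moll : Integrable (moll E) := (bump E).integrable_normed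

theorem integrable_norm_fderiv_moll : Integrable fun y : E => ‖fderiv ℝ (moll E) y‖ :=
  ((moll_contDiff.continuous_fderiv (by simp)).norm).integrable_of_hasCompactSupport
    ((bump E).hasCompactSupport_normed.fderiv ℝ).norm

theorem mollConst_nonneg : 0 ≤ mollConst E := by
  have : (0 : ℝ) ≤ ∫ y : E, ‖fderiv ℝ (moll E) y‖ := integral_nonneg fun y => norm_nonneg _
  rw [mollConst]
  positivity

/-- The mollifier of radius `t`. -/
noncomputable def ker (t : ℝ) (w : E) : ℝ := (t ^ Module.finrank ℝ E)⁻¹ * moll E (t⁻¹ • w)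

/-- The derivative of `ker` in both variables. -/
noncomputable def dker (t : ℝ) (w : E) (s : ℝ) (h : E) : ℝ :=
  (t ^ Module.finrank ℝ E)⁻¹ * (-(Module.finrank ℝ E : ℝ) * (s / t) * moll E (t⁻¹ • w) +
    fderiv ℝ (moll E) (t⁻¹ • w) (t⁻¹ • h - (s / t ^ 2) • w))

theorem ker_nonneg {t : ℝ} (ht : 0 ≤ t) (w : E) : 0 ≤ ker t w :=
  mul_nonneg (by positivity) (moll_nonneg _)

theorem ker_eq_zero {t : ℝ} (ht : 0 < t) {w : E} (hw : t < ‖w‖) : ker t w = 0 := by
  rw [ker, moll_eq_zero, mul_zero]
  rw [norm_smul, norm_inv, Real.norm_of_nonneg ht.le, ← div_eq_inv_mul, lt_div_iff₀ ht, one_mul]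
  exact hw

theorem dker_eq_zero {t : ℝ} (ht : 0 < t) {w : E} (hw : t < ‖w‖) (s : ℝ) (h : E) :
    dker t w s h = 0 := by
  have h1 : 1 < ‖t⁻¹ • w‖ := by
    rw [norm_smul, norm_inv, Real.norm_of_nonneg ht.le, ← div_eq_inv_mul, lt_div_iff₀ ht, one_mul]
    exact hw
  simp [dker, moll_eq_zero h1, fderiv_moll_eq_zero h1]

theorem contDiffOn_ker : ContDiffOn ℝ ∞ (fun q : ℝ × E => ker q.1 q.2) (Ioi 0 ×ˢ univ) := by
  have h1 : ContDiffOn ℝ ∞ (fun q : ℝ × E => q.1⁻¹) (Ioi 0 ×ˢ univ) :=
    contDiff_fst.contDiffOn.inv fun q hq => ne_of_gt hq.1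
  refine ContDiffOn.mul ?_ (moll_contDiff.comp_contDiffOn (h1.smul contDiff_snd.contDiffOn))
  exact (contDiff_fst.pow _).contDiffOn.inv fun q hq => pow_ne_zero _ (ne_of_gt hq.1)

theorem hasFDerivAt_ker {t : ℝ} (ht : 0 < t) (w : E) :
    HasFDerivAt (fun q : ℝ × E => ker q.1 q.2) (fderiv ℝ (fun q : ℝ × E => ker q.1 q.2) (t, w))
      (t, w) :=
  ((contDiffOn_ker.differentiableOn (by simp)).differentiableAt
    ((isOpen_Ioi.prod isOpen_univ).mem_nhds (mem_prod.2 ⟨mem_Ioi.2 ht, mem_univ _⟩))).hasFDerivAt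

theorem fderiv_ker {t : ℝ} (ht : 0 < t) (w : E) (s : ℝ) (h : E) :
    fderiv ℝ (fun q : ℝ × E => ker q.1 q.2) (t, w) (s, h) = dker t w s h := by
  set d := Module.finrank ℝ E
  have hpow : HasFDerivAt (fun q : ℝ × E => (q.1 ^ d)⁻¹)
      ((-(d : ℝ) / t * (t ^ d)⁻¹) • ContinuousLinearMap.fst ℝ ℝ E) (t, w) := by
    have h1 : HasDerivAt (fun u : ℝ => (u ^ d)⁻¹) (-(d : ℝ) / t * (t ^ d)⁻¹) t := by
      refine ((hasDerivAt_pow d t).fun_inv (pow_ne_zero _ ht.ne')).congr_deriv ?_
      rcases Nat.eq_zero_or_pos d with h0 | h0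
      · simp [h0]
      · obtain ⟨e, he⟩ := Nat.exists_eq_add_one.2 h0
        rw [he, Nat.add_sub_cancel, pow_succ]
        push_cast
        field_simp
        ring
    exact HasDerivAt.comp_hasFDerivAt (f := Prod.fst) (t, w) h1 hasFDerivAt_fst
  have hinv : HasFDerivAt (fun q : ℝ × E => q.1⁻¹)
      ((-(t ^ 2)⁻¹) • ContinuousLinearMap.fst ℝ ℝ E) (t, w) :=
    HasDerivAt.comp_hasFDerivAt (f := Prod.fst) (t, w) (hasDerivAt_inv ht.ne') hasFDerivAt_fst
  have hm := ((moll_contDiff (E := E)).differentiable (by simp) (t⁻¹ • w)).hasFDerivAt.comp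
    (x := (t, w)) (f := fun q : ℝ × E => q.1⁻¹ • q.2) (hinv.smul hasFDerivAt_snd)
  have hmul := hpow.mul hm
  have hker : HasFDerivAt (fun q : ℝ × E => ker q.1 q.2) _ (t, w) := hmul
  rw [hker.fderiv]
  simp only [Function.comp, dker, add_apply, smul_apply,
    ContinuousLinearMap.comp_apply, ContinuousLinearMap.smulRight_apply,
    ContinuousLinearMap.coe_fst', ContinuousLinearMap.coe_snd', smul_eq_mul, d]
  rw [show t⁻¹ • h - (s / t ^ 2) • w = t⁻¹ • h + (-(t ^ 2)⁻¹ * s) • w by
    rw [sub_eq_add_neg, ← neg_smul]; congr 2; ring]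
  ring

theorem dker_add (t : ℝ) (w : E) (s : ℝ) (h : E) :
    dker t w s h = s * dker t w 1 0 + dker t w 0 h := by
  simp only [dker, zero_div, zero_smul, sub_zero, smul_zero, zero_sub, mul_zero, map_neg,
    map_sub, map_smul, smul_eq_mul]
  ring

/-- The derivative of `ker` is the divergence of the radial field, up to a factor. -/
theorem dker_radial {t : ℝ} (ht : 0 < t) (w : E) :
    (Module.finrank ℝ E : ℝ) * ker t w + dker t w 0 w = -t * dker t w 1 0 := by
  simp only [dker, ker, zero_div, zero_smul, sub_zero, smul_zero, zero_sub, mul_zero, map_neg,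
    map_smul, smul_eq_mul]
  field_simp
  ring

theorem integral_comp_ker {F : Type*} [NormedAddCommGroup F] [NormedSpace ℝ F] {t : ℝ} (ht : 0 < t)
    (x : E) (v : E → F) :
    ∫ z, ker t (z - x) • v z = ∫ y, moll E y • v (x + t • y) := by
  rw [← integral_add_left_eq_self (fun z => ker t (z - x) • v z) x]
  simp only [add_sub_cancel_left, ker, mul_smul, integral_smul]
  have h := Measure.integral_comp_inv_smul_of_nonneg (volume : Measure E)
    (fun y => moll E y • v (x + t • y)) ht.le
  simp only [smul_smul, mul_inv_cancel₀ ht.ne', one_smul] at h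
  rw [h, smul_smul, inv_mul_cancel₀ (by positivity), one_smul]

theorem integral_ker {t : ℝ} (ht : 0 < t) (x : E) : ∫ z, ker t (z - x) = 1 := by
  have := integral_comp_ker (F := ℝ) ht x fun _ => 1
  simpa [integral_moll] using this

theorem integral_ker_smul_sub {t : ℝ} (ht : 0 < t) (x : E) :
    ∫ z, ker t (z - x) • (z - x) = 0 := by
  rw [integral_comp_ker ht x fun z => z - x]
  simp only [add_sub_cancel_left]
  have e : (fun y : E => moll E y • t • y) = fun y => -(moll E (-y) • t • -y) := by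
    funext y
    simp [moll, (bump E).normed_neg]
  have h1 : ∫ y : E, moll E y • t • y = -∫ y : E, moll E y • t • y := by
    conv_lhs => rw [e]
    rw [integral_neg, integral_neg_eq_self (fun y : E => moll E y • t • y)]
  have h2 : (2 : ℝ) • ∫ y : E, moll E y • t • y = 0 := by
    rw [two_smul]
    nth_rewrite 1 [h1]
    exact neg_add_cancel _
  exact (smul_eq_zero.1 h2).resolve_left two_ne_zero

/-- The `L¹` bound for the derivative of the variable radius kernel. -/
theorem abs_dker_le {t : ℝ} (ht : 0 < t) (w : E) {s : ℝ} (h : E) (hs : |s| ≤ ‖h‖) :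
    |dker t w s h| ≤ ‖h‖ / t * ((t ^ Module.finrank ℝ E)⁻¹ *
      ((Module.finrank ℝ E : ℝ) * moll E (t⁻¹ • w) + 2 * ‖fderiv ℝ (moll E) (t⁻¹ • w)‖)) := by
  set y := t⁻¹ • w
  set D := fderiv ℝ (moll E) y
  rw [dker, abs_mul, abs_of_nonneg (show 0 ≤ (t ^ Module.finrank ℝ E)⁻¹ by positivity),
    mul_left_comm (‖h‖ / t)]
  refine mul_le_mul_of_nonneg_left ((abs_add_le _ _).trans ?_) (by positivity)
  rw [mul_comm (‖h‖ / t), add_mul]
  refine add_le_add ?_ ?_
  · rw [abs_mul, abs_mul, abs_neg, Nat.abs_cast, abs_div, abs_of_pos ht,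
      abs_of_nonneg (moll_nonneg y)]
    rw [mul_assoc, mul_assoc, mul_comm (moll E y) (‖h‖ / t)]
    have := moll_nonneg y
    gcongr
  · rcases lt_or_ge 1 ‖y‖ with hy | hy
    · have hD : fderiv ℝ (moll E) (t⁻¹ • w) = 0 := fderiv_moll_eq_zero hy
      simp [D, y, hD]
    rw [← Real.norm_eq_abs]
    refine (D.le_opNorm _).trans ?_
    rw [mul_comm 2 ‖D‖, mul_assoc]
    refine mul_le_mul_of_nonneg_left ((norm_sub_le _ _).trans ?_) (norm_nonneg D)
    rw [show (s / t ^ 2) • w = (s / t) • y by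
      simp only [y, smul_smul]; congr 1; field_simp]
    rw [norm_smul, norm_smul, norm_inv, Real.norm_of_nonneg ht.le, Real.norm_eq_abs, abs_div,
      abs_of_pos ht, two_mul, ← div_eq_inv_mul]
    refine add_le_add le_rfl ((mul_le_of_le_one_right (by positivity) hy).trans ?_)
    gcongr

theorem integral_dker_bound {t : ℝ} (ht : 0 < t) (x : E) :
    Integrable (fun z : E => (t ^ Module.finrank ℝ E)⁻¹ *
      ((Module.finrank ℝ E : ℝ) * moll E (t⁻¹ • (z - x)) +
        2 * ‖fderiv ℝ (moll E) (t⁻¹ • (z - x))‖)) ∧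
    ∫ z : E, (t ^ Module.finrank ℝ E)⁻¹ *
      ((Module.finrank ℝ E : ℝ) * moll E (t⁻¹ • (z - x)) +
        2 * ‖fderiv ℝ (moll E) (t⁻¹ • (z - x))‖) = mollConst E := by
  set F : E → ℝ := fun y => (Module.finrank ℝ E : ℝ) * moll E y + 2 * ‖fderiv ℝ (moll E) y‖
  have hF : Integrable F :=
    (integrable_moll.const_mul _).add (integrable_norm_fderiv_moll.const_mul _)
  refine ⟨((hF.comp_smul (inv_ne_zero ht.ne')).comp_sub_right x).const_mul _, ?_⟩
  have h := integral_comp_ker (F := ℝ) ht x fun _ => 1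
  rw [integral_const_mul, integral_sub_right_eq_self (fun z => F (t⁻¹ • z)) x,
    Measure.integral_comp_inv_smul_of_nonneg volume F ht.le, smul_eq_mul, ← mul_assoc,
    inv_mul_cancel₀ (by positivity), one_mul]
  simp only [F]
  rw [integral_add (integrable_moll.const_mul _) (integrable_norm_fderiv_moll.const_mul _),
    integral_const_mul, integral_const_mul, integral_moll, mul_one, mollConst]

end Vale.Agent.P073
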