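import Vale.Agent.P073.Moll

/-!
# Mollifications of almost affine homeomorphisms are diffeomorphisms
-/

namespace Vale.Agent.P073

open MeasureTheory Metric Set Function Filter
open scoped ContDiff Topology

set_option linter.unusedSectionVars false

variable {E : Type*} [NormedAddCommGroup E] [InnerProductSpace ℝ E] [FiniteDimensional ℝ E]
  [MeasureSpace E] [BorelSpace E] [(volume : Measure E).IsAddHaarMeasure]

/-- A radius which is admissible for `f` on `Ω`. -/
structure IsRadius (η : ℝ) (Ω : Set E) (f : E → E) (ρ : E → ℝ) : Prop where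
  smooth : ContDiff ℝ ∞ ρ
  le_one : ∀ y, ρ y ≤ 1
  grad : ∀ y, ‖fderiv ℝ ρ y‖ ≤ 1 / 4
  pos : ∀ x ∈ Ω, 0 < ρ x
  inside : ∀ x ∈ Ω, closedBall x (4 * ρ x) ⊆ Ω
  affine : ∀ x ∈ Ω, ∀ r ∈ Ioc 0 (4 * ρ x), ∃ (L : E ≃L[ℝ] E) (b : E), ∀ y ∈ closedBall x r,
    ‖f y - (b + L (y - x))‖ * ‖(L.symm : E →L[ℝ] E)‖ ≤ η * r

theorem IsRadius.scale {η : ℝ} {Ω : Set E} {f : E → E} {ρ : E → ℝ} (h : IsRadius η Ω f ρ)
    {ε : ℝ} (hε : 0 < ε) (hε1 : ε ≤ 1) : IsRadius η Ω f fun y => ε * ρ y where
  smooth := contDiff_const.mul h.smooth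
  le_one y := by nlinarith [h.le_one y]
  grad y := by
    rw [fderiv_const_mul ((h.smooth.differentiable (by simp)) y), norm_smul,
      Real.norm_of_nonneg hε.le]
    nlinarith [h.grad y, norm_nonneg (fderiv ℝ ρ y)]
  pos x hx := mul_pos hε (h.pos x hx)
  inside x hx := (closedBall_subset_closedBall (by nlinarith [h.pos x hx])).trans (h.inside x hx)
  affine x hx r hr := h.affine x hx r ⟨hr.1, hr.2.trans (by nlinarith [h.pos x hx])⟩

variable [Nontrivial E]

/-- The local picture at `x` of the mollification of an almost affine map. -/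
theorem local_picture {η : ℝ} {Ω : Set E} {f : E → E}
    {ρ : E → ℝ} (h : IsRadius η Ω f ρ) (hfi : Integrable (Ω.indicator f)) (hη0 : 0 < η)
    (hη : 16 * η * (mollConst E + 2) ≤ 1) {x : E} (hx : x ∈ Ω) :
    ∃ M : ℝ, 0 < M ∧ ‖mollify ρ (Ω.indicator f) x - f x‖ ≤ 8 * η * M ∧
      (∀ z ∈ sphere x (2 * ρ x), M ≤ dist (f z) (f x)) ∧
      InjOn (mollify ρ (Ω.indicator f)) (closedBall x (2 * ρ x)) ∧
      ∃ L : E ≃L[ℝ] E, HasFDerivAt (mollify ρ (Ω.indicator f)) (L : E →L[ℝ] E) x := by
  set t := ρ x with ht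
  have ht0 : 0 < t := h.pos x hx
  have hρ1 : ∀ y, ‖fderiv ℝ ρ y‖ ≤ 1 := fun y => (h.grad y).trans (by norm_num)
  have hC := mollConst_nonneg (E := E)
  obtain ⟨L, b, hLb⟩ := h.affine x hx (4 * t) ⟨by positivity, le_rfl⟩
  set N := ‖(L.symm : E →L[ℝ] E)‖ with hN
  have hN0 : 0 < N := L.norm_symm_pos
  set A : E → E := fun y => b + (L : E →L[ℝ] E) (y - x) with hA
  set M := t / N with hM
  have hMN : M * N = t := div_mul_cancel₀ _ hN0.ne'
  have hdev : ∀ y ∈ closedBall x (4 * t), ‖f y - A y‖ ≤ 4 * η * M := by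
    intro y hy
    have h1 := hLb y hy
    rw [← le_div_iff₀ hN0] at h1
    refine h1.trans (le_of_eq ?_)
    rw [hM]
    ring
  set u := Ω.indicator f with hu
  set e := (closedBall x (4 * t)).indicator fun y => u y - A y with he
  have hAc : Continuous A := by fun_prop
  have hei : Integrable e := by
    rw [he, integrable_indicator_iff measurableSet_closedBall]
    exact hfi.integrableOn.sub (hAc.continuousOn.integrableOn_compact (isCompact_closedBall _ _))
  have heb : ∀ y, ‖e y‖ ≤ 4 * η * M := by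
    intro y
    by_cases hy : y ∈ closedBall x (4 * t)
    · rw [he, indicator_of_mem hy, hu, indicator_of_mem (h.inside x hx hy)]
      exact hdev y hy
    · rw [he, indicator_of_notMem hy, norm_zero]
      positivity
  have hlip : ∀ y z, |ρ y - ρ z| ≤ 1 / 4 * ‖y - z‖ := fun y z => by
    simpa [Real.norm_eq_abs] using convex_univ.norm_image_sub_le_of_norm_fderiv_le
      (fun w _ => (h.smooth.differentiable (by simp)) w) (fun w _ => h.grad w)
      (mem_univ z) (mem_univ y)
  -- near `x` the mollification is the affine map plus the mollified deviation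
  have hsplit : ∀ z ∈ ball x (9 / 4 * t), 0 < ρ z ∧ mollify ρ u z = A z + mollify ρ e z := by
    intro z hz
    rw [mem_ball, dist_eq_norm] at hz
    have h1 := abs_le.1 (hlip z x)
    have hρz : 0 < ρ z := by linarith
    refine ⟨hρz, ?_⟩
    have hint : Integrable fun w => ker (ρ z) (w - z) • A w :=
      ((continuous_ker.comp (continuous_id.sub continuous_const)).smul hAc)
        |>.integrable_of_hasCompactSupport (HasCompactSupport.intro (isCompact_closedBall z (ρ z))
          fun w hw => by
            show ker (ρ z) (w - z) • A w = 0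
            rw [ker_eq_zero hρz, zero_smul]
            rwa [mem_closedBall, dist_eq_norm, not_le] at hw)
    rw [show A z = mollify ρ A z from (mollify_affine hρz _ _ _).symm, mollify, mollify, mollify,
      ← integral_add hint (integrable_ker_smul hei z)]
    refine integral_congr_ae (Eventually.of_forall fun w => ?_)
    rcases lt_or_ge (ρ z) ‖w - z‖ with hw | hw
    · simp [ker_eq_zero hρz hw]
    · have hwB : w ∈ closedBall x (4 * t) := by
        rw [mem_closedBall, dist_eq_norm]
        linarith [norm_sub_le_norm_sub_add_norm_sub w z x]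
      simp only
      rw [he, indicator_of_mem hwB, ← smul_add, add_sub_cancel]
  have hderiv : ∀ z ∈ ball x (9 / 4 * t),
      HasFDerivAt (mollify ρ u) ((L : E →L[ℝ] E) + fderiv ℝ (mollify ρ e) z) z := by
    intro z hz
    obtain ⟨-, hd⟩ := hasFDerivAt_mollify h.smooth hρ1 hei (hsplit z hz).1
    have hA' : HasFDerivAt A (L : E →L[ℝ] E) z :=
      (((L : E →L[ℝ] E).hasFDerivAt).comp z ((hasFDerivAt_id z).sub_const x)).const_add b
    refine (hA'.add (hd.differentiableAt.hasFDerivAt)).congr_of_eventuallyEq ?_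
    filter_upwards [isOpen_ball.mem_nhds hz] with w hw
    exact (hsplit w hw).2
  have hsmall : ∀ z ∈ closedBall x (2 * t),
      ‖(L.symm : E →L[ℝ] E).comp (fderiv ℝ (mollify ρ e) z)‖ ≤ 1 / 2 := by
    intro z hz
    have hzb : z ∈ ball x (9 / 4 * t) := closedBall_subset_ball (by linarith) hz
    rw [mem_closedBall, dist_eq_norm] at hz
    have h1 := abs_le.1 (hlip z x)
    refine (ContinuousLinearMap.opNorm_comp_le _ _).trans ?_
    refine (mul_le_mul_of_nonneg_left
      (norm_fderiv_mollify_le h.smooth hρ1 hei (hsplit z hzb).1 heb) (norm_nonneg _)).trans ?_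
    rw [← hN, ← mul_div_assoc, div_le_iff₀ (hsplit z hzb).1]
    have h2 : N * (4 * η * M * mollConst E) = 4 * η * mollConst E * t := by rw [← hMN]; ring
    rw [h2]
    nlinarith
  set q : E → E := fun z => (L.symm : E →L[ℝ] E) (mollify ρ u z)
  have hq : ∀ z ∈ closedBall x (2 * t), HasFDerivAt q
      (ContinuousLinearMap.id ℝ E + (L.symm : E →L[ℝ] E).comp (fderiv ℝ (mollify ρ e) z)) z := by
    intro z hz
    have h1 := ((L.symm : E →L[ℝ] E).hasFDerivAt).comp z
      (hderiv z (closedBall_subset_ball (by linarith) hz))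
    refine h1.congr_fderiv ?_
    ext v
    simp
  refine ⟨M, div_pos ht0 hN0, ?_, ?_, ?_, ?_⟩
  · rw [(hsplit x (mem_ball_self (by positivity))).2]
    have h1 : ‖mollify ρ e x‖ ≤ 4 * η * M := by
      rw [mollify]
      have hk : Integrable fun z : E => ker t (z - x) := by
        refine (continuous_ker.comp (continuous_id.sub continuous_const)).integrable_of_hasCompactSupport
          (HasCompactSupport.intro (isCompact_closedBall x t) fun z hz => ?_)
        refine ker_eq_zero ht0 ?_
        rwa [mem_closedBall, dist_eq_norm, not_le] at hz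
      refine (norm_integral_le_of_norm_le (hk.mul_const (4 * η * M))
        (Eventually.of_forall fun z => ?_)).trans (le_of_eq ?_)
      · rw [norm_smul, Real.norm_of_nonneg (ker_nonneg ht0.le _)]
        exact mul_le_mul_of_nonneg_left (heb z) (ker_nonneg ht0.le _)
      · rw [integral_mul_const, integral_ker ht0, one_mul]
    have h2 := hdev x (mem_closedBall_self (by positivity))
    rw [add_comm, add_sub_assoc]
    refine (norm_add_le _ _).trans ?_
    rw [norm_sub_rev (A x)]
    linarith
  · intro z hz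
    rw [mem_sphere, dist_eq_norm] at hz
    have h1 := hdev z (by rw [mem_closedBall, dist_eq_norm]; linarith)
    have h2 := hdev x (mem_closedBall_self (by positivity))
    have h3 : 2 * M ≤ ‖(L : E →L[ℝ] E) (z - x)‖ := by
      have := (L.symm : E →L[ℝ] E).le_opNorm ((L : E →L[ℝ] E) (z - x))
      have h4 : ‖z - x‖ ≤ N * ‖(L : E →L[ℝ] E) (z - x)‖ := by simpa [hN] using this
      exact le_of_mul_le_mul_left (by rw [hz] at h4; linarith [hMN]) hN0
    have e1 : (L : E →L[ℝ] E) (z - x) = (A z - f z) + (f z - f x) + (f x - A x) := by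
      simp only [hA, sub_self, map_zero, add_zero]
      abel
    rw [e1] at h3
    rw [dist_eq_norm]
    have h4 := norm_add₃_le (a := A z - f z) (b := f z - f x) (c := f x - A x)
    rw [norm_sub_rev (A z)] at h4
    have : η ≤ 1 / 32 := by nlinarith
    nlinarith [div_pos ht0 hN0]
  · intro y hy z hz hyz
    have hc := (convex_closedBall x (2 * t)).norm_image_sub_le_of_norm_hasFDerivWithin_le
      (f := fun w => q w - w)
      (f' := fun w => (L.symm : E →L[ℝ] E).comp (fderiv ℝ (mollify ρ e) w))
      (fun w hw => by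
        refine (((hq w hw).sub (hasFDerivAt_id w)).congr_fderiv ?_).hasFDerivWithinAt
        simp)
      hsmall hz hy
    have hqq : q y = q z := by simp only [q, hyz]
    rw [hqq] at hc
    have e2 : q z - y - (q z - z) = -(y - z) := by abel
    rw [e2, norm_neg] at hc
    have := norm_nonneg (y - z)
    exact sub_eq_zero.1 (norm_eq_zero.1 (by linarith))
  · have hD := hderiv x (mem_ball_self (by positivity))
    set D := (L : E →L[ℝ] E) + fderiv ℝ (mollify ρ e) x
    have hinj : Injective D := by
      refine (injective_iff_map_eq_zero D).2 fun v hv => ?_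
      have h1 : v + ((L.symm : E →L[ℝ] E).comp (fderiv ℝ (mollify ρ e) x)) v = 0 := by
        have := congrArg (L.symm : E →L[ℝ] E) hv
        simpa [D] using this
      have h2 := ((L.symm : E →L[ℝ] E).comp (fderiv ℝ (mollify ρ e) x)).le_of_opNorm_le
        (hsmall x (mem_closedBall_self (by positivity))) v
      rw [eq_neg_of_add_eq_zero_right h1, norm_neg] at h2
      exact norm_eq_zero.1 (le_antisymm (by linarith) (norm_nonneg v))
    refine ⟨(LinearEquiv.ofBijective D.toLinearMap
      ⟨hinj, LinearMap.injective_iff_surjective.1 hinj⟩).toContinuousLinearEquiv, ?_⟩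
    exact hD

/-- Mollifying an almost affine homeomorphism with an admissible radius gives a diffeomorphism
onto the same target. -/
theorem isDiffeo_mollify {η : ℝ} {Ω Λ : Set E} (hΩ : IsOpen Ω) (hΩc : IsConnected Ω)
    (hΛ : IsOpen Λ) (hΛb : Bornology.IsBounded Λ) {f g : E → E} (hbij : BijOn f Ω Λ)
    (hinv : InvOn g f Ω Λ) (hfc : ContinuousOn f Ω) (hgc : ContinuousOn g Λ) {ρ : E → ℝ}
    (h : IsRadius η Ω f ρ) (hfi : Integrable (Ω.indicator f)) (hη0 : 0 < η)
    (hη : 16 * η * (mollConst E + 2) ≤ 1) :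
    IsDiffeo Ω Λ (mollify ρ (Ω.indicator f)) := by
  set F := mollify ρ (Ω.indicator f) with hF
  have hη16 : 32 * η ≤ 1 := by nlinarith [mollConst_nonneg (E := E)]
  choose! M hM0 hMd hMs hMi hML using fun x (hx : x ∈ Ω) => local_picture h hfi hη0 hη hx
  have hgm : MapsTo g Λ Ω := fun w hw => by
    obtain ⟨x, hx, rfl⟩ := hbij.surjOn hw
    rwa [hinv.1 hx]
  have hopen : ∀ U ⊆ Ω, IsOpen U → IsOpen (f '' U) := by
    intro U hU hUo
    have e : f '' U = Λ ∩ g ⁻¹' U := by
      ext w
      constructor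
      · rintro ⟨x, hx, rfl⟩
        exact ⟨hbij.mapsTo (hU hx), by rwa [mem_preimage, hinv.1 (hU hx)]⟩
      · rintro ⟨hw, hgw⟩
        exact ⟨g w, hgw, hinv.2 hw⟩
    rw [e]
    exact hgc.isOpen_inter_preimage hΛ hUo
  -- the ball around `f x` is covered by the image of a small ball
  have hcov : ∀ x ∈ Ω, ball (f x) (M x) ⊆ f '' ball x (2 * ρ x) := by
    intro x hx
    have hρ := h.pos x hx
    have hcs : closedBall x (2 * ρ x) ⊆ Ω :=
      (closedBall_subset_closedBall (by linarith)).trans (h.inside x hx)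
    have hbs : ball x (2 * ρ x) ⊆ Ω := ball_subset_closedBall.trans hcs
    refine (isPreconnected_ball : IsPreconnected (ball (f x) (M x))).subset_left_of_subset_union
      (hopen _ hbs isOpen_ball)
      ((((isCompact_closedBall x (2 * ρ x)).image_of_continuousOn (hfc.mono hcs)).isClosed).isOpen_compl)
      (disjoint_compl_right.mono_left (image_mono ball_subset_closedBall)) ?_
      ⟨f x, mem_ball_self (hM0 x hx), x, mem_ball_self (by positivity), rfl⟩
    intro w hw
    by_cases hwc : w ∈ f '' closedBall x (2 * ρ x)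
    · obtain ⟨z, hz, rfl⟩ := hwc
      rcases eq_or_lt_of_le (mem_closedBall.1 hz) with he | hlt
      · exact absurd (mem_ball.1 hw) (not_lt.2 (hMs x hx z (mem_sphere.2 he)))
      · exact Or.inl ⟨z, hlt, rfl⟩
    · exact Or.inr hwc
  have hcovΛ : ∀ x ∈ Ω, ball (f x) (M x) ⊆ Λ := fun x hx => (hcov x hx).trans
    ((image_mono ((ball_subset_closedBall.trans (closedBall_subset_closedBall
      (by linarith [h.pos x hx]))).trans (h.inside x hx))).trans hbij.mapsTo.image_subset)
  have hmaps : MapsTo F Ω Λ := fun x hx => hcovΛ x hx (by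
    rw [mem_ball, dist_eq_norm]
    nlinarith [hMd x hx, hM0 x hx])
  have hinj : InjOn F Ω := by
    have key : ∀ x ∈ Ω, ∀ y ∈ Ω, F x = F y → M y ≤ M x → x = y := by
      intro x hx y hy hxy hle
      have h1 : dist (f y) (f x) < M x := by
        rw [dist_eq_norm]
        have e : f y - f x = -(F y - f y) + (F x - f x) := by rw [hxy]; abel
        rw [e]
        refine (norm_add_le _ _).trans_lt ?_
        rw [norm_neg]
        nlinarith [hMd x hx, hMd y hy, hM0 x hx]
      obtain ⟨z, hz, hzy⟩ := hcov x hx (mem_ball.2 h1)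
      have hzΩ : z ∈ Ω :=
        ((ball_subset_closedBall.trans (closedBall_subset_closedBall
          (by linarith [h.pos x hx]))).trans (h.inside x hx)) hz
      rw [hbij.injOn hzΩ hy hzy] at hz
      exact hMi x hx (mem_closedBall_self (by linarith [h.pos x hx])) (ball_subset_closedBall hz) hxy
    intro x hx y hy hxy
    rcases le_total (M y) (M x) with hle | hle
    · exact key x hx y hy hxy hle
    · exact (key y hy x hx hxy.symm hle).symm
  have hsmooth : ContDiffOn ℝ ∞ F Ω :=
    (contDiffOn_mollify h.smooth (fun y => (h.le_one y).trans_lt one_lt_two) hfi).mono h.pos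
  have hat : ∀ x ∈ Ω, ContDiffAt ℝ ∞ F x := fun x hx => hsmooth.contDiffAt (hΩ.mem_nhds hx)
  have himo : IsOpen (F '' Ω) := by
    rw [isOpen_iff_mem_nhds]
    rintro _ ⟨x, hx, rfl⟩
    obtain ⟨L, hL⟩ := hML x hx
    rw [← ((hat x hx).hasStrictFDerivAt' hL (by simp)).map_nhds_eq_of_equiv]
    exact image_mem_map (hΩ.mem_nhds hx)
  -- the image is closed in `Λ`
  have hclosed : ∀ w ∈ Λ, w ∈ closure (F '' Ω) → w ∈ F '' Ω := by
    intro w hw hcl
    obtain ⟨d, hd, hdΛ⟩ := Metric.isOpen_iff.1 hΛ w hw
    have hne : (Λᶜ : Set E).Nonempty := by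
      rw [nonempty_compl]
      exact fun hu => NormedSpace.unbounded_univ ℝ E (hu ▸ hΛb)
    set K := closure Λ ∩ {v | d / 4 ≤ infDist v Λᶜ} with hK
    have hKc : IsCompact K :=
      hΛb.isCompact_closure.inter_right (isClosed_le continuous_const (continuous_infDist_pt _))
    have hKΛ : K ⊆ Λ := by
      intro v hv
      by_contra hvn
      have := hv.2
      simp only [mem_ofPred_eq, infDist_zero_of_mem (mem_compl hvn)] at this
      linarith
    set S := g '' K
    have hS : IsCompact S := hKc.image_of_continuousOn (hgc.mono hKΛ)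
    have hSΩ : S ⊆ Ω := (image_mono hKΛ).trans hgm.image_subset
    have hwd : d ≤ infDist w Λᶜ := (le_infDist hne).2 fun y hy => by
      by_contra hlt
      exact hy (hdΛ (by rw [mem_ball, dist_comm]; exact not_le.1 hlt))
    have hnear : ball w (d / 4) ∩ F '' Ω ⊆ F '' S := by
      rintro _ ⟨hv, x, hx, rfl⟩
      refine ⟨x, ⟨f x, ⟨subset_closure (hbij.mapsTo hx), ?_⟩, hinv.1 hx⟩, rfl⟩
      have h1 : M x ≤ infDist (f x) Λᶜ := (le_infDist hne).2 fun y hy => by
        by_contra hlt
        exact hy (hcovΛ x hx (by rw [mem_ball, dist_comm]; exact not_le.1 hlt))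
      have h2 := infDist_le_infDist_add_dist (x := w) (y := F x) (s := (Λᶜ : Set E))
      have h3 := infDist_le_infDist_add_dist (x := F x) (y := f x) (s := (Λᶜ : Set E))
      have h4 : dist (F x) (f x) ≤ 8 * η * M x := by rw [dist_eq_norm]; exact hMd x hx
      have h5 : dist w (F x) < d / 4 := by rw [dist_comm]; exact mem_ball.1 hv
      show d / 4 ≤ infDist (f x) Λᶜ
      nlinarith [hM0 x hx]
    have h6 : w ∈ closure (ball w (d / 4) ∩ F '' Ω) :=
      isOpen_ball.inter_closure ⟨mem_ball_self (by positivity), hcl⟩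
    have h7 : IsClosed (F '' S) :=
      (hS.image_of_continuousOn (hsmooth.continuousOn.mono hSΩ)).isClosed
    exact image_mono hSΩ (closure_minimal hnear h7 h6)
  have hΛc : IsPreconnected Λ := by
    rw [← hbij.image_eq]
    exact hΩc.isPreconnected.image f hfc
  have hsurj : SurjOn F Ω Λ := by
    obtain ⟨x₀, hx₀⟩ := hΩc.nonempty
    refine hΛc.subset_left_of_subset_union himo isClosed_closure.isOpen_compl
      (disjoint_compl_right.mono_left subset_closure) ?_
      ⟨F x₀, hmaps hx₀, x₀, hx₀, rfl⟩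
    intro w hw
    by_cases hwc : w ∈ closure (F '' Ω)
    · exact Or.inl (hclosed w hw hwc)
    · exact Or.inr hwc
  refine ⟨⟨hmaps, hinj, hsurj⟩, hsmooth, invFunOn F Ω,
    ⟨fun x hx => hinj.leftInvOn_invFunOn hx, fun w hw => hsurj.rightInvOn_invFunOn hw⟩, ?_⟩
  intro w hw
  obtain ⟨x, hx, rfl⟩ := hsurj hw
  obtain ⟨L, hL⟩ := hML x hx
  refine ContDiffAt.contDiffWithinAt ?_
  have h8 := (hat x hx).to_localInverse hL (by simp)
  refine h8.congr_of_eventuallyEq ?_
  have hs := (hat x hx).hasStrictFDerivAt' hL (by simp)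
  have hmem : ∀ᶠ v in 𝓝 (F x), hs.localInverse F L x v ∈ Ω :=
    hs.localInverse_tendsto.eventually (hΩ.mem_nhds hx)
  filter_upwards [hs.eventually_right_inverse, hmem] with v hv1 hv2
  conv_lhs => rw [← hv1]
  exact hinj.leftInvOn_invFunOn hv2

end Vale.Agent.P073
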