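import Vale.Agent.P073.Conv

/-!
# Almost affine Sobolev homeomorphisms are diffeomorphically approximable
-/

namespace Vale.Agent.P073

open MeasureTheory Metric Set Function Filter
open scoped ContDiff Topology ENNReal

set_option linter.unusedSectionVars false

variable {E : Type*} [NormedAddCommGroup E] [InnerProductSpace ℝ E] [FiniteDimensional ℝ E]
  [MeasureSpace E] [BorelSpace E] [(volume : Measure E).IsAddHaarMeasure] [Nontrivial E]

theorem norm_mollify_sub_le {σ : E → ℝ} {u : E → E} (hu : Integrable u) {x : E} (hx : 0 < σ x) :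
    ‖mollify σ u x - u x‖ ≤ oscMean σ u x := by
  have h1 : Integrable fun y => moll E y • u (x + σ x • y) := by
    obtain ⟨C, hC⟩ := (moll_contDiff (E := E)).continuous.bounded_above_of_compact_support
      ((bump E).hasCompactSupport_normed)
    exact ((hu.comp_add_left x).comp_smul hx.ne').bdd_smul C
      (moll_contDiff (E := E)).continuous.aestronglyMeasurable (Eventually.of_forall hC)
  have h2 : mollify σ u x - u x = ∫ y, moll E y • (u (x + σ x • y) - u x) := by
    simp only [smul_sub]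
    rw [integral_sub h1 ((integrable_moll (E := E)).smul_const _), integral_smul_const,
      integral_moll, one_smul, mollify, integral_comp_ker hx]
  rw [h2]
  refine norm_integral_le_of_norm_le (integrable_osc hu x hx.ne') (Eventually.of_forall fun y => ?_)
  rw [norm_smul, Real.norm_of_nonneg (moll_nonneg y)]

theorem norm_fderiv_scale_le {η : ℝ} {Ω : Set E} {f : E → E} {ρ : E → ℝ}
    (h : IsRadius η Ω f ρ) {ε : ℝ} (hε : 0 < ε) (y : E) :
    ‖fderiv ℝ (fun z => ε * ρ z) y‖ ≤ ε / 4 := by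
  rw [fderiv_const_mul ((h.smooth.differentiable (by simp)) y), norm_smul,
    Real.norm_of_nonneg hε.le]
  nlinarith [h.grad y, norm_nonneg (fderiv ℝ ρ y)]

/-- The derivative of the mollification differs from `Gi` by at most the mean oscillation of `Gi`
and a multiple of the gradient of the radius. -/
theorem norm_fderiv_mollify_sub_le {Ω : Set E} (hΩ : IsOpen Ω) {σ : E → ℝ}
    (hσs : ContDiff ℝ ∞ σ) {ε : ℝ} (hε0 : 0 < ε) (hε1 : ε ≤ 1)
    (hσg : ∀ y, ‖fderiv ℝ σ y‖ ≤ ε / 4) {f : E → E} {G₀ : E → E →L[ℝ] E}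
    (hui : Integrable (Ω.indicator f)) (hG₀i : IntegrableOn G₀ Ω)
    (hGii : Integrable (Ω.indicator G₀))
    (hweak₀ : ∀ ψ : E → ℝ, ContDiff ℝ ∞ ψ → HasCompactSupport ψ → tsupport ψ ⊆ Ω → ∀ h : E,
      ∫ x in Ω, fderiv ℝ ψ x h • f x = -∫ x in Ω, ψ x • G₀ x h)
    {x : E} (hσx : 0 < σ x) (hball : closedBall x (σ x) ⊆ Ω) :
    ‖fderiv ℝ (mollify σ (Ω.indicator f)) x - Ω.indicator G₀ x‖ ≤
      2 * oscMean σ (Ω.indicator G₀) x + ε * ‖Ω.indicator G₀ x‖ := by
  classical
  set u := Ω.indicator f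
  set Gi := Ω.indicator G₀
  have hgr : ∀ y, ‖fderiv ℝ σ y‖ ≤ 1 := fun y => (hσg y).trans (by linarith)
  refine ContinuousLinearMap.opNorm_le_bound _ (by
    have := oscMean_nonneg σ Gi x; positivity) fun h => ?_
  rw [sub_apply, fderiv_mollify_apply hΩ hσs hgr hui hG₀i hweak₀ hσx hball h,
    integral_comp_ker hσx x fun z => Gi z (h + (fderiv ℝ σ x h / σ x) • (z - x))]
  simp only [add_sub_cancel_left, smul_smul, div_mul_cancel₀ _ hσx.ne']
  set s := fderiv ℝ σ x h
  have hs : |s| ≤ ε / 4 * ‖h‖ := by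
    rw [← Real.norm_eq_abs]
    exact ((fderiv ℝ σ x).le_opNorm h).trans
      (mul_le_mul_of_nonneg_right (hσg x) (norm_nonneg h))
  have hint : Integrable fun y => moll E y • Gi (x + σ x • y) (h + s • y) := by
    obtain ⟨C, hC⟩ := (moll_contDiff (E := E)).continuous.bounded_above_of_compact_support
      ((bump E).hasCompactSupport_normed)
    refine ((integrable_moll_mul_comp hGii x hσx.ne').mul_const ((1 + ε) * ‖h‖)).mono'
      ((moll_contDiff (E := E)).continuous.aestronglyMeasurable.smul ?_)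
      (Eventually.of_forall fun y => ?_)
    · exact (ContinuousLinearMap.id ℝ (E →L[ℝ] E)).aestronglyMeasurable_comp₂
        ((hGii.comp_add_left x).comp_smul hσx.ne').1
        (by fun_prop : Continuous fun y : E => h + s • y).aestronglyMeasurable
    · rcases lt_or_ge 1 ‖y‖ with hy | hy
      · simp [moll_eq_zero hy]
      rw [norm_smul, Real.norm_of_nonneg (moll_nonneg y), mul_assoc]
      refine mul_le_mul_of_nonneg_left (((Gi (x + σ x • y)).le_opNorm _).trans ?_) (moll_nonneg y)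
      refine mul_le_mul_of_nonneg_left ((norm_add_le _ _).trans ?_) (norm_nonneg _)
      rw [norm_smul, Real.norm_eq_abs]
      nlinarith [norm_nonneg h, abs_nonneg s, hs, hy, norm_nonneg y, mul_nonneg hε0.le (norm_nonneg h)]
  have e1 : (∫ y, moll E y • Gi (x + σ x • y) (h + s • y)) - Gi x h =
      ∫ y, moll E y • (Gi (x + σ x • y) (h + s • y) - Gi x h) := by
    simp only [smul_sub]
    rw [integral_sub hint ((integrable_moll (E := E)).smul_const _), integral_smul_const,
      integral_moll, one_smul]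
  rw [e1]
  refine (norm_integral_le_of_norm_le
    (((integrable_osc hGii x hσx.ne').mul_const (2 * ‖h‖)).add
      ((integrable_moll (E := E)).mul_const (ε * ‖Gi x‖ * ‖h‖)))
    (Eventually.of_forall fun y => ?_)).trans (le_of_eq ?_)
  · rcases lt_or_ge 1 ‖y‖ with hy | hy
    · simp [moll_eq_zero hy]
    simp only [Pi.add_apply]
    rw [norm_smul, Real.norm_of_nonneg (moll_nonneg y), mul_assoc, ← mul_add]
    refine mul_le_mul_of_nonneg_left ?_ (moll_nonneg y)
    have e2 : Gi (x + σ x • y) (h + s • y) - Gi x h =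
        (Gi (x + σ x • y) - Gi x) (h + s • y) + s • Gi x y := by
      simp only [sub_apply, map_add, map_smul, smul_sub]
      abel
    rw [e2]
    refine (norm_add_le _ _).trans (add_le_add ?_ ?_)
    · refine (ContinuousLinearMap.le_opNorm _ _).trans
        (mul_le_mul_of_nonneg_left ((norm_add_le _ _).trans ?_) (norm_nonneg _))
      rw [norm_smul, Real.norm_eq_abs]
      nlinarith [norm_nonneg h, abs_nonneg s, hs, hy, norm_nonneg y]
    · rw [norm_smul, Real.norm_eq_abs]
      calc |s| * ‖Gi x y‖ ≤ (ε / 4 * ‖h‖) * (‖Gi x‖ * 1) :=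
            mul_le_mul hs (((Gi x).le_opNorm y).trans
              (mul_le_mul_of_nonneg_left hy (norm_nonneg _))) (norm_nonneg _) (by positivity)
        _ ≤ ε * ‖Gi x‖ * ‖h‖ := by
            nlinarith [mul_nonneg (mul_nonneg hε0.le (norm_nonneg (Gi x))) (norm_nonneg h)]
  · rw [integral_add' ((integrable_osc hGii x hσx.ne').mul_const (2 * ‖h‖))
      ((integrable_moll (E := E)).mul_const (ε * ‖Gi x‖ * ‖h‖)), integral_mul_const,
      integral_mul_const, integral_moll, oscMean]
    ring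

theorem isApproximable_of_almostAffine {Ω Λ : Set E} (hΩ : IsOpen Ω) (hΩc : IsConnected Ω)
    (hΩb : Bornology.IsBounded Ω) (hΛ : IsOpen Λ) (hΛb : Bornology.IsBounded Λ) {f g : E → E}
    (hbij : BijOn f Ω Λ) (hinv : InvOn g f Ω Λ) (hfc : ContinuousOn f Ω) (hgc : ContinuousOn g Λ)
    {p : ℝ≥0∞} (hp : 1 ≤ p) (hp' : p ≠ ⊤) {G : E → E →L[ℝ] E} (hS : HasSobolevDeriv Ω p f G)
    (hA : IsAlmostAffine (1 / (16 * (mollConst E + 2))) Ω f) :
    IsDiffeoApproximable Ω Λ p f G := by
  classical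
  have hC := mollConst_nonneg (E := E)
  set η := 1 / (16 * (mollConst E + 2)) with hηdef
  have hη0 : 0 < η := by positivity
  have hη : 16 * η * (mollConst E + 2) ≤ 1 := by
    rw [hηdef]; field_simp; rfl
  obtain ⟨ρ, hρ⟩ := exists_isRadius hΩc.nonempty hA
  obtain ⟨hfp, hGp, hweak⟩ := hS
  have hfin : IsFiniteMeasure (volume.restrict Ω) := ⟨by
    rw [Measure.restrict_apply_univ]; exact hΩb.measure_lt_top⟩
  obtain ⟨G₀, hG₀m, hGae⟩ : ∃ G₀, StronglyMeasurable G₀ ∧ G =ᵐ[volume.restrict Ω] G₀ :=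
    ⟨_, hGp.1.stronglyMeasurable_mk, hGp.1.ae_eq_mk⟩
  have hG₀p : MemLp G₀ p (volume.restrict Ω) := hGp.ae_eq hGae
  set u := Ω.indicator f with hu
  set Gi := Ω.indicator G₀ with hGi
  have hum : StronglyMeasurable u := by
    have h := hfc.measurable_piecewise (g := fun _ => (0 : E)) continuousOn_const hΩ.measurableSet
    rw [← Set.piecewise_eq_indicator] at hu
    rw [hu]
    exact h.stronglyMeasurable
  have hGim : StronglyMeasurable Gi := hG₀m.indicator hΩ.measurableSet
  have hup : MemLp u p := (memLp_indicator_iff_restrict hΩ.measurableSet).2 hfp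
  have hGip : MemLp Gi p := (memLp_indicator_iff_restrict (f := G₀) hΩ.measurableSet).2 hG₀p
  have hG₀i : IntegrableOn G₀ Ω := hG₀p.integrable hp
  have hui : Integrable u :=
    IntegrableOn.integrable_indicator (f := f) (hfp.integrable hp) hΩ.measurableSet
  have hGii : Integrable Gi := by
    refine Integrable.mono' (IntegrableOn.integrable_indicator (f := fun z => ‖G₀ z‖)
      (Integrable.norm hG₀i) hΩ.measurableSet) hGim.aestronglyMeasurable
      (Eventually.of_forall fun z => ?_)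
    by_cases hz : z ∈ Ω <;> simp [Gi, hz]
  have hweak₀ : ∀ ψ : E → ℝ, ContDiff ℝ ∞ ψ → HasCompactSupport ψ → tsupport ψ ⊆ Ω → ∀ h : E,
      ∫ x in Ω, fderiv ℝ ψ x h • f x = -∫ x in Ω, ψ x • G₀ x h := by
    intro ψ h1 h2 h3 h
    rw [hweak ψ h1 h2 h3 h]
    congr 1
    refine integral_congr_ae ?_
    filter_upwards [hGae] with x hx
    rw [hx]
  have hT1 := tendsto_oscMean hΩ.measurableSet hΩb hρ.smooth hρ.grad hρ.pos hρ.le_one hum hui hp hp'
    hup
  have hT2 := tendsto_oscMean hΩ.measurableSet hΩb hρ.smooth hρ.grad hρ.pos hρ.le_one hGim hGii hp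
    hp' hGip
  set A := eLpNorm Gi p (volume.restrict Ω)
  have hAtop : A ≠ ⊤ :=
    ((eLpNorm_mono_measure _ Measure.restrict_le_self).trans_lt hGip.2).ne
  have h0 : Tendsto (fun ε : ℝ => ENNReal.ofReal ε) (𝓝[>] (0 : ℝ)) (𝓝 0) := by
    simpa using (ENNReal.continuous_ofReal.tendsto (0 : ℝ)).mono_left nhdsWithin_le_nhds
  have hlim : Tendsto (fun ε : ℝ => eLpNorm (oscMean (fun y => ε * ρ y) u) p (volume.restrict Ω) +
      (2 * eLpNorm (oscMean (fun y => ε * ρ y) Gi) p (volume.restrict Ω) + ENNReal.ofReal ε * A))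
      (𝓝[>] (0 : ℝ)) (𝓝 0) := by
    have h2 := ENNReal.Tendsto.const_mul (a := (2 : ℝ≥0∞)) hT2 (Or.inr (by norm_num))
    have h3 := ENNReal.Tendsto.mul_const (b := A) h0 (Or.inr hAtop)
    simpa using hT1.add (h2.add h3)
  intro δ hδ
  obtain ⟨ε, hεd, hε0, hε1⟩ :=
    ((hlim.eventually (gt_mem_nhds hδ)).and (Ioo_mem_nhdsGT (zero_lt_one' ℝ))).exists
  set σ := fun y => ε * ρ y with hσdef
  have hσ := hρ.scale hε0 hε1.le
  refine ⟨mollify σ u,
    isDiffeo_mollify hΩ hΩc hΛ hΛb hbij hinv hfc hgc hσ hui hη0 hη, lt_of_le_of_lt ?_ hεd⟩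
  refine add_le_add (eLpNorm_mono_ae (ae_restrict_of_forall_mem hΩ.measurableSet fun x hx => ?_)) ?_
  · rw [Real.norm_of_nonneg (oscMean_nonneg _ _ _), show f x = u x from
      (indicator_of_mem hx f).symm]
    exact norm_mollify_sub_le hui (hσ.pos x hx)
  -- the derivatives
  have hd : ∀ x ∈ Ω, ‖fderiv ℝ (mollify σ u) x - Gi x‖ ≤
      2 * oscMean σ Gi x + ε * ‖Gi x‖ := fun x hx =>
    norm_fderiv_mollify_sub_le hΩ hσ.smooth hε0 hε1.le
      (fun y => norm_fderiv_scale_le hρ hε0 y) hui hG₀i hGii hweak₀ (hσ.pos x hx)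
      ((closedBall_subset_closedBall (by linarith [hσ.pos x hx])).trans (hσ.inside x hx))
  have hb : ∀ᵐ x ∂volume.restrict Ω, ‖fderiv ℝ (mollify σ u) x - G x‖ ≤
      ‖2 * oscMean σ Gi x + ε * ‖Gi x‖‖ := by
    filter_upwards [hGae, ae_restrict_mem hΩ.measurableSet] with x hx hxΩ
    rw [hx, show G₀ x = Gi x from (indicator_of_mem hxΩ G₀).symm]
    exact (hd x hxΩ).trans (le_abs_self _)
  refine (eLpNorm_mono_ae hb).trans ?_
  refine (eLpNorm_add_le ((stronglyMeasurable_oscMean hσ.smooth.continuous hGim).const_mul 2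
    ).aestronglyMeasurable (hGim.norm.const_mul ε).aestronglyMeasurable hp).trans (add_le_add ?_ ?_)
  · rw [show (fun x => 2 * oscMean σ Gi x) = (2 : ℝ) • oscMean σ Gi from rfl, eLpNorm_const_smul]
    simp [Real.enorm_eq_ofReal]
  · rw [show (fun x => ε * ‖Gi x‖) = ε • fun x => ‖Gi x‖ from rfl, eLpNorm_const_smul, eLpNorm_norm,
      Real.enorm_eq_ofReal hε0.le]

end Vale.Agent.P073
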