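import Vale.Agent.P073.Kernel

/-!
# The derivative of a mollification with variable radius
-/

namespace Vale.Agent.P073

open MeasureTheory Metric Set Function Filter
open scoped ContDiff Topology RealInnerProductSpace

set_option linter.unusedSectionVars false

variable {E : Type*} [NormedAddCommGroup E] [InnerProductSpace ℝ E] [FiniteDimensional ℝ E]
  [MeasureSpace E] [BorelSpace E] [(volume : Measure E).IsAddHaarMeasure]

/-- The mollification of `u` with radius `ρ x` at `x`. -/
noncomputable def mollify (ρ : E → ℝ) (u : E → E) (x : E) : E :=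
  ∫ z, ker (ρ x) (z - x) • u z

/-- The derivative of `x ↦ ker (ρ x) (z - x)`. -/
noncomputable def kerDeriv (ρ : E → ℝ) (x z : E) : E →L[ℝ] ℝ :=
  (fderiv ℝ (fun q : ℝ × E => ker q.1 q.2) (ρ x, z - x)).comp
    ((fderiv ℝ ρ x).prod (-ContinuousLinearMap.id ℝ E))

theorem kerDeriv_apply {ρ : E → ℝ} {x : E} (hx : 0 < ρ x) (z h : E) :
    kerDeriv ρ x z h = dker (ρ x) (z - x) (fderiv ℝ ρ x h) (-h) := by
  rw [← fderiv_ker hx]
  simp [kerDeriv]

theorem hasFDerivAt_ker_comp {ρ : E → ℝ} (hρ : ContDiff ℝ ∞ ρ) {x : E} (hx : 0 < ρ x) (z : E) :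
    HasFDerivAt (fun y => ker (ρ y) (z - y)) (kerDeriv ρ x z) x := by
  have h2 : HasFDerivAt (fun y : E => z - y) (-ContinuousLinearMap.id ℝ E) x :=
    (hasFDerivAt_id x).const_sub z
  exact (hasFDerivAt_ker hx (z - x)).comp (f := fun y => (ρ y, z - y)) x
    ((((hρ.differentiable (by simp)) x).hasFDerivAt).prodMk h2)

theorem continuous_ker {t : ℝ} : Continuous fun w : E => ker t w :=
  continuous_const.mul ((moll_contDiff (E := E)).continuous.comp (continuous_const_smul _))

theorem integrable_ker_smul {t : ℝ} {u : E → E} (hu : Integrable u) (x : E) :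
    Integrable fun z => ker t (z - x) • u z := by
  obtain ⟨C, hC⟩ := (moll_contDiff (E := E)).continuous.bounded_above_of_compact_support
    ((bump E).hasCompactSupport_normed)
  exact hu.bdd_smul (φ := fun z => ker t (z - x)) (|(t ^ Module.finrank ℝ E)⁻¹| * C)
    ((continuous_ker.comp (continuous_id.sub continuous_const)).aestronglyMeasurable)
    (Eventually.of_forall fun z => by
      simp only [ker, norm_mul, Real.norm_eq_abs]
      exact mul_le_mul_of_nonneg_left (by simpa using hC _) (abs_nonneg _))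

/-- The derivative of a mollification. -/
theorem hasFDerivAt_mollify {ρ : E → ℝ} (hρ : ContDiff ℝ ∞ ρ) (hρ1 : ∀ y, ‖fderiv ℝ ρ y‖ ≤ 1)
    {u : E → E} (hu : Integrable u) {x : E} (hx : 0 < ρ x) :
    Integrable (fun z => (kerDeriv ρ x z).smulRight (u z)) ∧
      HasFDerivAt (mollify ρ u) (∫ z, (kerDeriv ρ x z).smulRight (u z)) x := by
  obtain ⟨Cm, hCm⟩ := (moll_contDiff (E := E)).continuous.bounded_above_of_compact_support
    ((bump E).hasCompactSupport_normed)
  obtain ⟨Cd, hCd⟩ := ((moll_contDiff (E := E)).continuous_fderiv (by simp)).norm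
    |>.bounded_above_of_compact_support ((bump E).hasCompactSupport_normed.fderiv ℝ).norm
  have hCm0 : 0 ≤ Cm := (norm_nonneg _).trans (hCm 0)
  have hCd0 : 0 ≤ Cd := (norm_nonneg _).trans (hCd 0)
  set t₀ := ρ x
  set U : Set E := {y | t₀ / 2 < ρ y}
  have hU : U ∈ 𝓝 x :=
    (isOpen_lt continuous_const hρ.continuous).mem_nhds (by show t₀ / 2 < t₀; linarith)
  set K : ℝ := 1 / (t₀ / 2) * (((t₀ / 2) ^ Module.finrank ℝ E)⁻¹ *
    ((Module.finrank ℝ E : ℝ) * Cm + 2 * Cd))
  have hKb : ∀ y ∈ U, ∀ z, ‖kerDeriv ρ y z‖ ≤ K := by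
    intro y hy z
    have hy0 : 0 < ρ y := lt_trans (by positivity) hy
    refine ContinuousLinearMap.opNorm_le_bound _ (by positivity) fun h => ?_
    rw [kerDeriv_apply hy0, Real.norm_eq_abs]
    refine (abs_dker_le hy0 (z - y) (-h) ?_).trans ?_
    · rw [norm_neg, ← Real.norm_eq_abs]
      exact ((fderiv ℝ ρ y).le_opNorm h).trans (mul_le_of_le_one_left (norm_nonneg _) (hρ1 y))
    · rw [norm_neg]
      have h1 := (le_abs_self _).trans (hCm ((ρ y)⁻¹ • (z - y)))
      have h2 := (le_abs_self _).trans (hCd ((ρ y)⁻¹ • (z - y)))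
      have h3 := moll_nonneg ((ρ y)⁻¹ • (z - y))
      have hy' : t₀ / 2 ≤ ρ y := le_of_lt hy
      calc _ ≤ ‖h‖ / (t₀ / 2) * (((t₀ / 2) ^ Module.finrank ℝ E)⁻¹ *
            ((Module.finrank ℝ E : ℝ) * Cm + 2 * Cd)) := by gcongr
        _ = K * ‖h‖ := by simp only [K]; ring
  have hmeas : AEStronglyMeasurable (fun z => (kerDeriv ρ x z).smulRight (u z)) volume := by
    have hc : Continuous fun z => kerDeriv ρ x z := by
      refine Continuous.clm_comp ?_ continuous_const
      exact (contDiffOn_ker.continuousOn_fderiv_of_isOpen (isOpen_Ioi.prod isOpen_univ)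
        (by simp)).comp_continuous (by fun_prop) fun z => ⟨hx, trivial⟩
    exact (ContinuousLinearMap.smulRightL ℝ E E).aestronglyMeasurable_comp₂
      hc.aestronglyMeasurable hu.1
  have hb : ∀ y ∈ U, ∀ z, ‖(kerDeriv ρ y z).smulRight (u z)‖ ≤ K * ‖u z‖ := fun y hy z => by
    rw [ContinuousLinearMap.norm_smulRight_apply]
    exact mul_le_mul_of_nonneg_right (hKb y hy z) (norm_nonneg _)
  refine ⟨(hu.norm.const_mul K).mono' hmeas
    (Eventually.of_forall (hb x (mem_of_mem_nhds hU))), ?_⟩
  refine hasFDerivAt_integral_of_dominated_of_fderiv_le (bound := fun z => K * ‖u z‖) hU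
    (F := fun y z => ker (ρ y) (z - y) • u z)
    (F' := fun y z => (kerDeriv ρ y z).smulRight (u z)) ?_ (integrable_ker_smul hu x) hmeas
    (Eventually.of_forall fun z y hy => hb y hy z) (hu.norm.const_mul K)
    (Eventually.of_forall fun z y hy => ?_)
  · exact Eventually.of_forall fun y => (integrable_ker_smul hu y).1
  · exact (hasFDerivAt_ker_comp hρ (lt_trans (show (0 : ℝ) < t₀ / 2 by positivity) hy) z).smul_const
      (u z)

/-- The derivative of a mollification is bounded by the supremum of the function over the radius. -/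
theorem norm_fderiv_mollify_le {ρ : E → ℝ} (hρ : ContDiff ℝ ∞ ρ)
    (hρ1 : ∀ y, ‖fderiv ℝ ρ y‖ ≤ 1) {u : E → E} (hu : Integrable u) {x : E} (hx : 0 < ρ x)
    {M : ℝ} (hM : ∀ z, ‖u z‖ ≤ M) :
    ‖fderiv ℝ (mollify ρ u) x‖ ≤ M * mollConst E / ρ x := by
  have hM0 : 0 ≤ M := (norm_nonneg _).trans (hM 0)
  obtain ⟨hi, hd⟩ := hasFDerivAt_mollify hρ hρ1 hu hx
  rw [hd.fderiv]
  refine ContinuousLinearMap.opNorm_le_bound _
    (div_nonneg (mul_nonneg hM0 mollConst_nonneg) hx.le) fun h => ?_
  rw [ContinuousLinearMap.integral_apply hi]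
  obtain ⟨hb, hbi⟩ := integral_dker_bound (E := E) hx x
  refine (norm_integral_le_of_norm_le ((hb.const_mul (‖h‖ / ρ x * M)))
    (Eventually.of_forall fun z => ?_)).trans (le_of_eq ?_)
  · rw [ContinuousLinearMap.smulRight_apply, norm_smul, kerDeriv_apply hx, Real.norm_eq_abs]
    refine (mul_le_mul (abs_dker_le hx (z - x) (-h) ?_) (hM z) (norm_nonneg _) ?_).trans ?_
    · rw [norm_neg, ← Real.norm_eq_abs]
      exact ((fderiv ℝ ρ x).le_opNorm h).trans (mul_le_of_le_one_left (norm_nonneg _) (hρ1 x))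
    · have := moll_nonneg ((ρ x)⁻¹ • (z - x))
      positivity
    · rw [norm_neg]
      ring_nf
      rfl
  · rw [integral_const_mul, hbi]
    ring

theorem mollify_affine {ρ : E → ℝ} {x : E} (hx : 0 < ρ x) (L : E →L[ℝ] E) (c b : E) :
    mollify ρ (fun z => b + L (z - c)) x = b + L (x - c) := by
  have hcs : ∀ v : E → E, Continuous v → Integrable fun z => ker (ρ x) (z - x) • v z := fun v hv =>
    ((continuous_ker.comp (continuous_id.sub continuous_const)).smul hv)
      |>.integrable_of_hasCompactSupport (HasCompactSupport.intro (isCompact_closedBall x (ρ x))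
        fun z hz => by
          show ker (ρ x) (z - x) • v z = 0
          rw [ker_eq_zero hx, zero_smul]
          rwa [mem_closedBall, dist_eq_norm, not_le] at hz)
  have e : (fun z => ker (ρ x) (z - x) • (b + L (z - c))) = fun z =>
      ker (ρ x) (z - x) • (b + L (x - c)) + L (ker (ρ x) (z - x) • (z - x)) := by
    funext z
    rw [map_smul, ← smul_add, add_assoc, ← map_add]
    congr 3
    abel
  have h2 : Integrable fun z => ker (ρ x) (z - x) • (z - x) :=
    hcs (fun z => z - x) (continuous_id.sub continuous_const)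
  rw [mollify, e, integral_add (hcs _ continuous_const) (L.integrable_comp h2),
    L.integral_comp_comm h2, integral_ker_smul_sub hx, map_zero, add_zero, integral_smul_const,
    integral_ker hx, one_smul]

/-- Mollifications are smooth where the radius is positive. -/
theorem contDiffOn_mollify {ρ : E → ℝ} (hρ : ContDiff ℝ ∞ ρ) (hρle : ∀ y, ρ y < 2) {u : E → E}
    (hu : Integrable u) : ContDiffOn ℝ ∞ (mollify ρ u) {x | 0 < ρ x} := by
  have h := contDiffOn_convolution_right_with_param (μ := (volume : Measure E)) (n := ⊤)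
    (ContinuousLinearMap.lsmul ℝ ℝ : ℝ →L[ℝ] E →L[ℝ] E).flip
    (g := fun (p : ℝ) (w : E) => ker p (-w)) (s := Ioo (0 : ℝ) 2)
    (k := closedBall (0 : E) 2) isOpen_Ioo (isCompact_closedBall _ _) (fun p w hp hw => ?_)
    hu.locallyIntegrable ?_
  · refine ((h.comp (hρ.contDiffOn.prodMk contDiff_id.contDiffOn)
      (fun x hx => ⟨⟨hx, hρle x⟩, trivial⟩))).congr fun x _ => ?_
    simp [mollify, convolution]
  · refine ker_eq_zero hp.1 ?_
    rw [norm_neg]
    rw [mem_closedBall, dist_zero_right, not_le] at hw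
    linarith [hp.2]
  · exact contDiffOn_ker.comp (contDiff_fst.prodMk contDiff_snd.neg).contDiffOn
      fun q hq => ⟨hq.1.1, trivial⟩

/-- The derivative of the mollification of a Sobolev function. -/
theorem fderiv_mollify_apply {Ω : Set E} (hΩ : IsOpen Ω) {ρ : E → ℝ} (hρ : ContDiff ℝ ∞ ρ)
    (hρ1 : ∀ y, ‖fderiv ℝ ρ y‖ ≤ 1) {f : E → E} {G : E → E →L[ℝ] E}
    (hf : Integrable (Ω.indicator f)) (hG : IntegrableOn G Ω)
    (hweak : ∀ ψ : E → ℝ, ContDiff ℝ ∞ ψ → HasCompactSupport ψ → tsupport ψ ⊆ Ω → ∀ h : E,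
      ∫ x in Ω, fderiv ℝ ψ x h • f x = -∫ x in Ω, ψ x • G x h)
    {x : E} (hx : 0 < ρ x) (hball : closedBall x (ρ x) ⊆ Ω) (h : E) :
    fderiv ℝ (mollify ρ (Ω.indicator f)) x h =
      ∫ z, ker (ρ x) (z - x) • Ω.indicator G z (h + (fderiv ℝ ρ x h / ρ x) • (z - x)) := by
  classical
  set t := ρ x with ht
  set u := Ω.indicator f
  set Gi := Ω.indicator G
  obtain ⟨hi, hd⟩ := hasFDerivAt_mollify hρ hρ1 hf hx
  -- integration by parts against a test function supported in the ball
  have hibp : ∀ ψ : E → ℝ, ContDiff ℝ ∞ ψ → (∀ z, t < ‖z - x‖ → ψ z = 0) → ∀ v : E,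
      ∫ z, fderiv ℝ ψ z v • u z = -∫ z, ψ z • Gi z v := by
    intro ψ hψ hψ0 v
    have hts : tsupport ψ ⊆ closedBall x t := by
      refine closure_minimal (fun z hz => ?_) isClosed_closedBall
      by_contra hzb
      rw [mem_closedBall, dist_eq_norm, not_le] at hzb
      exact hz (hψ0 z hzb)
    have h1 := hweak ψ hψ ((isCompact_closedBall x t).of_isClosed_subset (isClosed_tsupport _) hts)
      (hts.trans hball) v
    rw [← integral_indicator hΩ.measurableSet, ← integral_indicator hΩ.measurableSet] at h1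
    convert h1 using 1
    · congr 1
      funext z
      by_cases hz : z ∈ Ω <;> simp [u, hz]
    · congr 1
      congr 1
      funext z
      by_cases hz : z ∈ Ω <;> simp [Gi, hz]
  -- the kernel and the radial fields
  set ψ : E → ℝ := fun z => ker t (z - x) with hψdef
  have hψs : ContDiff ℝ ∞ ψ := by
    rw [← contDiffOn_univ]
    exact contDiffOn_ker.comp (contDiff_const.prodMk (contDiff_id.sub contDiff_const)).contDiffOn
      fun z _ => ⟨hx, trivial⟩
  have hψ0 : ∀ z, t < ‖z - x‖ → ψ z = 0 := fun z hz => ker_eq_zero hx hz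
  have hψd : ∀ z v, fderiv ℝ ψ z v = dker t (z - x) 0 v := by
    intro z v
    have h1 : HasFDerivAt ψ ((fderiv ℝ (fun q : ℝ × E => ker q.1 q.2) (t, z - x)).comp
        ((0 : E →L[ℝ] ℝ).prod (ContinuousLinearMap.id ℝ E))) z :=
      (hasFDerivAt_ker hx (z - x)).comp (f := fun y => (t, y - x)) z
        ((hasFDerivAt_const t z).prodMk ((hasFDerivAt_id z).sub_const x))
    rw [h1.fderiv, ← fderiv_ker hx]
    rfl
  have hGi : Integrable Gi := by
    refine Integrable.mono' (IntegrableOn.integrable_indicator (f := fun z => ‖G z‖)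
      (Integrable.norm hG) hΩ.measurableSet) ?_ (Eventually.of_forall fun z => ?_)
    · exact (aestronglyMeasurable_indicator_iff hΩ.measurableSet).2 hG.1
    · by_cases hz : z ∈ Ω <;> simp [Gi, hz]
  have hsmulG : ∀ (φ : E → ℝ), Continuous φ → HasCompactSupport φ → ∀ v : E,
      Integrable fun z => φ z • Gi z v := by
    intro φ hφ hφc v
    obtain ⟨C, hC⟩ := hφ.bounded_above_of_compact_support hφc
    exact (hGi.apply_continuousLinearMap v).bdd_smul C hφ.aestronglyMeasurable
      (Eventually.of_forall hC)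
  have hsmulu : ∀ (φ : E → ℝ), Continuous φ → HasCompactSupport φ →
      Integrable fun z => φ z • u z := by
    intro φ hφ hφc
    obtain ⟨C, hC⟩ := hφ.bounded_above_of_compact_support hφc
    exact hf.bdd_smul C hφ.aestronglyMeasurable (Eventually.of_forall hC)
  have hψc : HasCompactSupport ψ := HasCompactSupport.intro (isCompact_closedBall x t) fun z hz => by
    rw [mem_closedBall, dist_eq_norm, not_le] at hz
    exact hψ0 z hz
  have hdψ : ∀ v, Continuous fun z => dker t (z - x) 0 v := fun v => by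
    simp only [← hψd]
    exact (hψs.continuous_fderiv (by simp)).clm_apply continuous_const
  have hdψc : ∀ v, HasCompactSupport fun z => dker t (z - x) 0 v := fun v =>
    HasCompactSupport.intro (isCompact_closedBall x t) fun z hz => by
      rw [mem_closedBall, dist_eq_norm, not_le] at hz
      exact dker_eq_zero hx hz _ _
  -- the radial part
  set b := stdOrthonormalBasis ℝ E
  have hrad : (∫ z, dker t (z - x) 1 0 • u z) = t⁻¹ • ∫ z, ψ z • Gi z (z - x) := by
    set ψi : Fin (Module.finrank ℝ E) → E → ℝ := fun i z => ⟪b i, z - x⟫ * ψ z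
    have hψis : ∀ i, ContDiff ℝ ∞ (ψi i) := fun i =>
      (contDiff_const.inner ℝ (contDiff_id.sub contDiff_const)).mul hψs
    have hψid : ∀ i z, fderiv ℝ (ψi i) z (b i) =
        ψ z + ⟪b i, z - x⟫ * dker t (z - x) 0 (b i) := by
      intro i z
      have h1 : HasFDerivAt (fun z : E => ⟪b i, z - x⟫) (innerSL ℝ (b i)) z :=
        ((innerSL ℝ (b i)).hasFDerivAt.comp z ((hasFDerivAt_id z).sub_const x))
      have h2 := (h1.mul ((hψs.differentiable (by simp)) z).hasFDerivAt).fderiv
      show fderiv ℝ ((fun z : E => ⟪b i, z - x⟫) * ψ) z (b i) = _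
      rw [h2]
      simp [hψd]
      ring
    have hsum : ∀ z, ∑ i, fderiv ℝ (ψi i) z (b i) = -t * dker t (z - x) 1 0 := by
      intro z
      simp only [hψid, Finset.sum_add_distrib, Finset.sum_const, Finset.card_univ, Fintype.card_fin,
        nsmul_eq_mul]
      rw [← dker_radial hx (z - x), ← hψd]
      congr 1
      conv_rhs => rw [← b.sum_repr' (z - x), map_sum]
      simp only [← hψd, map_smul, smul_eq_mul]
    have hψic : ∀ i, HasCompactSupport (ψi i) := fun i => hψc.mul_left
    have e1 : ∫ z, ∑ i, fderiv ℝ (ψi i) z (b i) • u z = -∫ z, ψ z • Gi z (z - x) := by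
      rw [integral_finsetSum _ fun i _ => hsmulu _ (((hψis i).continuous_fderiv (by simp)).clm_apply
        continuous_const) (((hψic i).fderiv ℝ).mono fun z hz => by
          simp only [mem_support] at hz ⊢
          exact fun h0 => hz (by rw [h0]; simp))]
      simp only [fun i => hibp (ψi i) (hψis i)
        (fun z hz => show ⟪b i, z - x⟫ * ψ z = 0 by rw [hψ0 z hz, mul_zero]) (b i)]
      rw [Finset.sum_neg_distrib, ← integral_finsetSum _ fun i _ =>
        hsmulG (ψi i) (hψis i).continuous (hψic i) (b i)]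
      congr 1
      refine integral_congr_ae (Eventually.of_forall fun z => ?_)
      simp only [ψi]
      conv_rhs => rw [← b.sum_repr' (z - x), map_sum, Finset.smul_sum]
      simp [map_smul, smul_smul, mul_comm]
    simp only [← Finset.sum_smul, hsum, mul_smul, integral_smul] at e1
    rw [neg_smul, neg_inj] at e1
    rw [← e1, smul_smul, inv_mul_cancel₀ hx.ne', one_smul]
  rw [hd.fderiv, ContinuousLinearMap.integral_apply hi]
  have e2 : ∀ z, (kerDeriv ρ x z).smulRight (u z) h =
      fderiv ℝ ρ x h • (dker t (z - x) 1 0 • u z) + -(fderiv ℝ ψ z h • u z) := by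
    intro z
    rw [ContinuousLinearMap.smulRight_apply, kerDeriv_apply hx, dker_add, ← ht, ← hψd z (-h),
      map_neg, add_smul, mul_smul, neg_smul]
  simp only [e2]
  have i1 : Integrable fun z => dker t (z - x) 1 0 • u z := by
    have hc : Continuous fun z => dker t (z - x) 1 0 := by
      simp only [← fderiv_ker hx]
      exact ((contDiffOn_ker.continuousOn_fderiv_of_isOpen (isOpen_Ioi.prod isOpen_univ)
        (by simp)).comp_continuous (f := fun z => (t, z - x)) (by fun_prop)
        fun z => mem_prod.2 ⟨hx, trivial⟩).clm_apply continuous_const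
    exact hsmulu _ hc (HasCompactSupport.intro (isCompact_closedBall x t) fun z hz => by
      rw [mem_closedBall, dist_eq_norm, not_le] at hz
      exact dker_eq_zero hx hz _ _)
  have i2 : Integrable fun z => fderiv ℝ ψ z h • u z := by
    simp only [hψd]; exact hsmulu _ (hdψ h) (hdψc h)
  have i1' : Integrable fun z => fderiv ℝ ρ x h • (dker t (z - x) 1 0 • u z) := i1.smul _
  have i2' : Integrable fun z => -(fderiv ℝ ψ z h • u z) := i2.neg
  rw [integral_add i1' i2', integral_neg, hibp ψ hψs hψ0 h, neg_neg, integral_smul,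
    hrad, smul_smul, ← div_eq_mul_inv, ← integral_smul, add_comm]
  have i3 : Integrable fun z => (fderiv ℝ ρ x h / t) • (ψ z • Gi z (z - x)) := by
    refine Integrable.smul _ ?_
    refine Integrable.congr (integrable_finsetSum Finset.univ fun i _ => hsmulG
      (fun z => ⟪b i, z - x⟫ * ψ z) ((continuous_const.inner (continuous_id.sub
        continuous_const)).mul hψs.continuous) hψc.mul_left (b i)) (Eventually.of_forall fun z => ?_)
    simp only
    conv_rhs => rw [← b.sum_repr' (z - x), map_sum, Finset.smul_sum]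
    simp [map_smul, smul_smul, mul_comm]
  rw [← integral_add (hsmulG ψ hψs.continuous hψc h) i3]
  refine integral_congr_ae (Eventually.of_forall fun z => ?_)
  simp only [map_add, map_smul, smul_add, hψdef]
  rw [smul_comm]

end Vale.Agent.P073
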