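import Vale.Agent.P073.Local

/-!
# An admissible radius exists
-/

namespace Vale.Agent.P073

open MeasureTheory Metric Set Function Filter
open scoped ContDiff Topology

set_option linter.unusedSectionVars false

variable {E : Type*} [NormedAddCommGroup E] [InnerProductSpace ℝ E] [FiniteDimensional ℝ E]
  [MeasureSpace E]

theorem exists_isRadius {η : ℝ} {Ω : Set E} (hne : Ω.Nonempty) {f : E → E}
    (hf : IsAlmostAffine η Ω f) : ∃ ρ, IsRadius η Ω f ρ := by
  choose! R hR0 hRΩ hRA using hf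
  obtain ⟨T, hTΩ, hTc, hcov⟩ :=
    TopologicalSpace.isOpen_biUnion_countable Ω (fun a => ball a (R a)) fun a _ => isOpen_ball
  have hTcov : ∀ x ∈ Ω, ∃ a ∈ T, x ∈ ball a (R a) := by
    intro x hx
    have h1 : x ∈ ⋃ a ∈ Ω, ball a (R a) := mem_biUnion hx (mem_ball_self (hR0 x hx))
    rw [← hcov] at h1
    simpa using h1
  obtain ⟨a, haT⟩ := hTc.exists_eq_range (by
    obtain ⟨x, hx⟩ := hne
    obtain ⟨a, ha, -⟩ := hTcov x hx
    exact ⟨a, ha⟩)
  have haΩ : ∀ i, a i ∈ Ω := fun i => hTΩ (haT ▸ mem_range_self i)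
  have hRi : ∀ i, 0 < R (a i) := fun i => hR0 _ (haΩ i)
  set g : ∀ i, ContDiffBump (a i) := fun i =>
    ⟨R (a i) / 2, R (a i), by linarith [hRi i], by linarith [hRi i]⟩ with hg
  have hbd : ∀ i k : ℕ, ∃ B, ∀ x, ‖iteratedFDeriv ℝ k (g i) x‖ ≤ B := by
    intro i k
    obtain ⟨B, hB⟩ := ((g i).contDiff.continuous_iteratedFDeriv
      (m := k) (n := ∞) (mod_cast le_top)).norm.bddAbove_range_of_hasCompactSupport
      (((g i).hasCompactSupport.iteratedFDeriv k).comp_left norm_zero)
    exact ⟨B, fun x => hB (mem_range_self x)⟩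
  choose B hB using hbd
  have hB0 : ∀ i k, 0 ≤ B i k := fun i k => (norm_nonneg _).trans (hB i k (a i))
  set S : ℕ → ℝ := fun i => 1 + ∑ k ∈ Finset.range (i + 2), B i k
  have hS : ∀ i, 1 ≤ S i := fun i => by
    simp only [S]; linarith [Finset.sum_nonneg fun k (_ : k ∈ Finset.range (i + 2)) => hB0 i k]
  set c : ℕ → ℝ := fun i => (1 / 2) ^ i * (min 1 (R (a i)) / (16 * S i)) with hc
  have hc0 : ∀ i, 0 < c i := fun i => by
    have := hS i; have := hRi i; simp only [hc]; positivity
  set v : ℕ → ℝ := fun i => (1 / 2) ^ i * (1 / 16)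
  have hvs : Summable v := (summable_geometric_two.mul_right _)
  have hv2 : ∑' i, v i = 1 / 8 := by rw [tsum_mul_right, tsum_geometric_two]; norm_num
  have hcS : ∀ i, c i * S i = (1 / 2) ^ i * (min 1 (R (a i)) / 16) := fun i => by
    have := hS i
    simp only [hc]
    field_simp
  have hcS1 : ∀ i, c i * S i ≤ v i := fun i => by
    rw [hcS]
    exact mul_le_mul_of_nonneg_left (by linarith [min_le_left (1 : ℝ) (R (a i))]) (by positivity)
  have hBS : ∀ i k, k ≤ i + 1 → B i k ≤ S i := fun i k hk => by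
    have := Finset.single_le_sum (f := fun k => B i k) (fun k _ => hB0 i k)
      (Finset.mem_range.2 (show k < i + 2 by omega))
    simp only [S]
    linarith
  have hder : ∀ i k x, ‖iteratedFDeriv ℝ k (fun y => c i * g i y) x‖ = c i * ‖iteratedFDeriv ℝ k (g i) x‖ := by
    intro i k x
    rw [show (fun y => c i * g i y) = c i • ⇑(g i) from rfl,
      iteratedFDeriv_const_smul_apply ((g i).contDiff.contDiffAt), norm_smul,
      Real.norm_of_nonneg (hc0 i).le]
  set ρ : E → ℝ := fun x => ∑' i, c i * g i x with hρ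
  have hsumm : ∀ x, Summable fun i => c i * g i x := fun x =>
    Summable.of_nonneg_of_le (fun i => mul_nonneg (hc0 i).le (g i).nonneg) (fun i => by
      calc c i * g i x ≤ c i * S i :=
            mul_le_mul_of_nonneg_left ((g i).le_one.trans (hS i)) (hc0 i).le
        _ ≤ v i := hcS1 i) hvs
  have hsmooth : ContDiff ℝ ∞ ρ := by
    refine contDiff_tsum_of_eventually (𝕜 := ℝ) (v := fun _ i => v i)
      (fun i => (contDiff_const.mul (g i).contDiff)) (fun k _ => hvs) fun k _ => ?_
    rw [Nat.cofinite_eq_atTop]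
    filter_upwards [eventually_ge_atTop k] with i hi x
    rw [hder]
    exact (mul_le_mul_of_nonneg_left ((hB i k x).trans (hBS i k (by omega))) (hc0 i).le).trans
      (hcS1 i)
  have hfd : ∀ i x, ‖fderiv ℝ (fun y => c i * g i y) x‖ ≤ v i := by
    intro i x
    rw [← norm_iteratedFDeriv_one, hder]
    exact (mul_le_mul_of_nonneg_left ((hB i 1 x).trans (hBS i 1 (by omega))) (hc0 i).le).trans
      (hcS1 i)
  have hpos : ∀ x ∈ Ω, 0 < ρ x := by
    intro x hx
    obtain ⟨b, hb, hxb⟩ := hTcov x hx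
    rw [haT] at hb
    obtain ⟨i, rfl⟩ := hb
    refine (hsumm x).tsum_pos (fun i => mul_nonneg (hc0 i).le (g i).nonneg) i (mul_pos (hc0 i) ?_)
    exact lt_of_le_of_ne (g i).nonneg
      (Ne.symm (mem_support.1 (by rw [(g i).support_eq]; exact hxb)))
  have hj : ∀ x ∈ Ω, ∃ j, x ∈ ball (a j) (R (a j)) ∧ 4 * ρ x ≤ R (a j) := by
    intro x hx
    by_contra hcon
    push Not at hcon
    have h1 : ∀ i, c i * g i x ≤ v i * (4 * ρ x) := by
      intro i
      by_cases hi : x ∈ ball (a i) (R (a i))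
      · refine (mul_le_mul_of_nonneg_left ((g i).le_one.trans (hS i)) (hc0 i).le).trans ?_
        rw [hcS]
        simp only [v]
        rw [mul_assoc]
        refine mul_le_mul_of_nonneg_left ?_ (by positivity)
        linarith [hcon i hi, min_le_right (1 : ℝ) (R (a i))]
      · rw [show g i x = 0 from notMem_support.1 (by rw [(g i).support_eq]; exact hi), mul_zero]
        have := hpos x hx
        simp only [v]
        positivity
    have h2 := Summable.tsum_le_tsum h1 (hsumm x) (hvs.mul_right _)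
    rw [tsum_mul_right, hv2] at h2
    have h3 := hpos x hx
    change ρ x ≤ 1 / 8 * (4 * ρ x) at h2
    linarith
  refine ⟨ρ, hsmooth, fun x => ?_, fun x => ?_, hpos, fun x hx => ?_, fun x hx r hr => ?_⟩
  · refine (Summable.tsum_le_tsum (fun i => ?_) (hsumm x) hvs).trans (by rw [hv2]; norm_num)
    exact (mul_le_mul_of_nonneg_left ((g i).le_one.trans (hS i)) (hc0 i).le).trans (hcS1 i)
  · rw [hρ, fderiv_tsum_apply hvs (fun i => ((g i).contDiff (n := ⊤)).differentiable (by simp)
      |>.const_mul _) (fun i y => hfd i y) (hsumm x) x]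
    refine (tsum_of_norm_bounded hvs.hasSum (fun i => hfd i x)).trans ?_
    rw [hv2]
    norm_num
  · obtain ⟨j, hj1, hj2⟩ := hj x hx
    refine Subset.trans (fun y hy => ?_) (hRΩ _ (haΩ j))
    rw [mem_closedBall] at hy ⊢
    linarith [mem_ball.1 hj1, dist_triangle y x (a j)]
  · obtain ⟨j, hj1, hj2⟩ := hj x hx
    exact hRA _ (haΩ j) x (ball_subset_closedBall hj1) r ⟨hr.1, hr.2.trans hj2⟩

end Vale.Agent.P073
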